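import Vale.Agent.P307.H304.Pt

/-!
Chains in preorders, and complete points.
-/

universe u

open Cardinal Set

namespace Vale.Agent.P307.H304

variable {P : Type u} [Preorder P] {κ : Cardinal.{u}}

/-- Well-ordered chains of length at most `κ` are bounded. -/
def ChB (P : Type u) [Preorder P] (κ : Cardinal.{u}) : Prop :=
  ∀ (ι : Type u) [LinearOrder ι] [Nonempty ι], #ι ≤ κ → ∀ c : ι → P, Monotone c →
    ∃ b, ∀ i, c i ≤ b

/-- Transfinite iteration of steps. -/
theorem exists_chain (hP : ChB P κ) (x₀ : P) (I : Type u) [LinearOrder I] [WellFoundedLT I]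
    (hI : ∀ i : I, #(Iio i) ≤ κ) (step : I → P → P) (hstep : ∀ i x, x ≤ step i x) :
    ∃ b : I → P, (∀ i, x₀ ≤ b i) ∧ ∀ j i, j < i → step j (b j) ≤ b i := by
  classical
  let b : I → P := WellFounded.fix (r := (· < ·)) wellFounded_lt (fun i rec =>
    if h : ∃ z, x₀ ≤ z ∧ ∀ j : Iio i, step j.1 (rec j.1 j.2) ≤ z then h.choose else x₀)
  have hb : ∀ i, b i = if h : ∃ z, x₀ ≤ z ∧ ∀ j : Iio i, step j.1 (b j.1) ≤ z then h.choose
      else x₀ := fun i => WellFounded.fix_eq _ _ i
  have key : ∀ i, x₀ ≤ b i ∧ ∀ j, j < i → step j (b j) ≤ b i := by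
    intro i
    induction i using WellFoundedLT.induction with
    | ind i ih =>
    have hex : ∃ z, x₀ ≤ z ∧ ∀ j : Iio i, step j.1 (b j.1) ≤ z := by
      rcases isEmpty_or_nonempty (Iio i) with hemp | hne
      · exact ⟨x₀, le_rfl, fun j => (hemp.false j).elim⟩
      · obtain ⟨z, hz⟩ := hP (Iio i) (hI i) (fun j => step j.1 (b j.1)) (by
          intro j k hjk
          rcases eq_or_lt_of_le hjk with h | h
          · rw [h]
          · exact ((ih k.1 k.2).2 j.1 h).trans (hstep _ _))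
        refine ⟨z, ?_, hz⟩
        have j := Classical.arbitrary (Iio i)
        exact ((ih j.1 j.2).1.trans (hstep j.1 _)).trans (hz j)
    have h1 : b i = hex.choose := (hb i).trans (dif_pos hex)
    rw [h1]
    exact ⟨hex.choose_spec.1, fun j hj => hex.choose_spec.2 ⟨j, hj⟩⟩
  exact ⟨b, fun i => (key i).1, fun j i hj => (key i).2 j hj⟩

/-- Meeting the requirements of a family of size at most `κ`. -/
theorem exists_ge_forall (hP : ChB P κ) (x : P) {J : Type u} (hJ : #J ≤ κ) (D : J → P → Prop)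
    (hD : ∀ q x y, x ≤ y → D q x → D q y) :
    ∃ y, x ≤ y ∧ ∀ q : J, (∃ z, y ≤ z ∧ D q z) → D q y := by
  classical
  rcases isEmpty_or_nonempty J with hemp | hne
  · exact ⟨x, le_rfl, fun q => (hemp.false q).elim⟩
  letI : LinearOrder J := linearOrderOfSTO (WellOrderingRel (α := J))
  haveI : WellFoundedLT J := ⟨(WellOrderingRel.isWellOrder (α := J)).wf⟩
  have hstep : ∀ (q : J) (x : P), ∃ y, x ≤ y ∧ ((∃ z, x ≤ z ∧ D q z) → D q y) := by
    intro q x
    by_cases h : ∃ z, x ≤ z ∧ D q z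
    · obtain ⟨z, h1, h2⟩ := h
      exact ⟨z, h1, fun _ => h2⟩
    · exact ⟨x, le_rfl, fun h' => absurd h' h⟩
  choose step hs1 hs2 using hstep
  obtain ⟨b, hb1, hb2⟩ := exists_chain hP x J (fun i => (mk_set_le _).trans hJ) step hs1
  obtain ⟨y, hy⟩ := hP J hJ (fun j => step j (b j)) (by
    intro j k hjk
    rcases eq_or_lt_of_le hjk with h | h
    · rw [h]
    · exact (hb2 j k h).trans (hs1 _ _))
  have hby : ∀ q, b q ≤ y := fun q => (hs1 q _).trans (hy q)
  refine ⟨y, (hb1 (Classical.arbitrary J)).trans (hby _), fun q hq => ?_⟩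
  obtain ⟨z, h1, h2⟩ := hq
  exact hD q _ _ (hy q) (hs2 q (b q) ⟨z, (hby q).trans h1, h2⟩)

end Vale.Agent.P307.H304
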