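import Vale.Agent.P307.H304.Lev

/-!
Reduction of the elementarity of strong embeddings to models of one size.
-/

universe u

open FirstOrder Cardinal Set

namespace Vale.Agent.P307.H304

variable {L : Language.{u, u}} {M N M' N' : Type u} [L.Structure M] [L.Structure N]
  [L.Structure M'] [L.Structure N']

theorem isPI_map {R : Set (M × N)} (h : IsPI L R) (f : M ↪[L] M') (g : N ↪[L] N') :
    IsPI L (Prod.map f g '' R : Set (M' × N')) where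
  eq_iff := by
    rintro _ ⟨p, hp, rfl⟩ _ ⟨q, hq, rfl⟩
    simp only [Prod.map_fst, Prod.map_snd]
    rw [f.injective.eq_iff, g.injective.eq_iff]
    exact h.eq_iff p hp q hq
  fun_iff := by
    rintro n φ x hx _ ⟨q, hq, rfl⟩
    choose y hy hyx using hx
    have h1 : (fun i => (x i).1) = f ∘ fun i => (y i).1 := by
      funext i
      rw [← hyx i]
      rfl
    have h2 : (fun i => (x i).2) = g ∘ fun i => (y i).2 := by
      funext i
      rw [← hyx i]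
      rfl
    rw [h1, h2, ← f.map_fun, ← g.map_fun]
    simp only [Prod.map_fst, Prod.map_snd]
    rw [f.injective.eq_iff, g.injective.eq_iff]
    exact h.fun_iff φ y hy q hq
  rel_iff := by
    rintro n r x hx
    choose y hy hyx using hx
    have h1 : (fun i => (x i).1) = f ∘ fun i => (y i).1 := by
      funext i
      rw [← hyx i]
      rfl
    have h2 : (fun i => (x i).2) = g ∘ fun i => (y i).2 := by
      funext i
      rw [← hyx i]
      rfl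
    rw [h1, h2, f.map_rel, g.map_rel]
    exact h.rel_iff r y hy

/-- Witnesses for the failure of a position. -/
theorem exists_witness (ν : Cardinal.{u}) (R : Set (M × N)) :
    ∃ (A : Set M) (B : Set N), #A ≤ ν ∧ #B ≤ ν ∧ (IsPI L R → #R ≤ ν → ∀ γ, R ∉ Lev L M N ν γ →
      ∃ β < γ, (¬ ∃ R' ∈ Lev L M N ν β, R ⊆ R' ∧ CovL R' A) ∨
        (¬ ∃ R' ∈ Lev L M N ν β, R ⊆ R' ∧ CovR R' B)) := by
  by_cases hR : IsPI L R ∧ #R ≤ ν ∧ ∃ γ, R ∉ Lev L M N ν γ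
  · obtain ⟨h1, h2, h3⟩ := hR
    obtain ⟨γ₀, h4, h5⟩ : ∃ γ₀, R ∉ Lev L M N ν γ₀ ∧ ∀ γ, R ∉ Lev L M N ν γ → γ₀ ≤ γ :=
      ⟨sInf {γ | R ∉ Lev L M N ν γ}, csInf_mem (s := {γ | R ∉ Lev L M N ν γ}) h3,
        fun γ hγ => csInf_le' hγ⟩
    have h6 : ∃ β < γ₀, (∃ A : Set M, #A ≤ ν ∧ ¬ ∃ R' ∈ Lev L M N ν β, R ⊆ R' ∧ CovL R' A) ∨
        (∃ B : Set N, #B ≤ ν ∧ ¬ ∃ R' ∈ Lev L M N ν β, R ⊆ R' ∧ CovR R' B) := by
      by_contra hcon
      refine h4 (mem_lev_iff.2 ⟨h1, h2, fun β hβ => ⟨fun A hA => ?_, fun B hB => ?_⟩⟩)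
      · by_contra hc
        exact hcon ⟨β, hβ, Or.inl ⟨A, hA, hc⟩⟩
      · by_contra hc
        exact hcon ⟨β, hβ, Or.inr ⟨B, hB, hc⟩⟩
    obtain ⟨β, h7, ⟨A, h8, h9⟩ | ⟨B, h8, h9⟩⟩ := h6
    · exact ⟨A, ∅, h8, by simp, fun _ _ γ hγ => ⟨β, h7.trans_le (h5 γ hγ), Or.inl h9⟩⟩
    · exact ⟨∅, B, by simp, h8, fun _ _ γ hγ => ⟨β, h7.trans_le (h5 γ hγ), Or.inr h9⟩⟩
  · refine ⟨∅, ∅, by simp, by simp, fun h1 h2 γ hγ => absurd ⟨h1, h2, γ, hγ⟩ hR⟩

theorem mk_iUnion_subsets_le {X Y : Type u} {ν κ : Cardinal.{u}} (hκ : ℵ₀ ≤ κ)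
    (hνκ : 2 ^ ν ≤ κ) (T : Set X) (hT : #T ≤ ν) (F : Set X → Set Y) (hF : ∀ R, #(F R) ≤ κ) :
    #(⋃ R : {R : Set X // R ⊆ T}, F R.1 : Set Y) ≤ κ :=
  mk_iUnion_le_of_le hκ (mk_subsets_le hνκ T hT) _ fun R => hF R.1

theorem good_gr_of_size {K : AEC L} {ℓ ν κ : Cardinal.{u}} (hK : K.IsLS ℓ) (hν : ℓ ≤ ν)
    (hκ : κ ^ ν = κ) (hκ2 : 2 ≤ κ)
    (H : ∀ (M N : Type u) [L.Structure M] [L.Structure N] (f : M ↪[L] N), K.Emb f → #M = κ →
      #N = κ → ∀ A : Set M, #A ≤ ν → Good L ν (gr f A))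
    (f : M ↪[L] N) (hf : K.Emb f) (hM : κ ≤ #M) (A : Set M) (hA : #A ≤ ν) :
    Good L ν (gr f A) := by
  have hν0 : ℵ₀ ≤ ν := hK.1.trans hν
  have h2ν : 2 ^ ν ≤ κ := (power_le_power_right hκ2).trans_eq hκ
  have hνκ : ν ≤ κ := (cantor ν).le.trans h2ν
  have hκ0 : ℵ₀ ≤ κ := hν0.trans hνκ
  have hN : κ ≤ #N := hM.trans (mk_le_of_injective f.injective)
  choose WA WB hWA hWB hW using fun R : Set (M × N) => exists_witness (L := L) ν R
  obtain ⟨S, S', hS, hS', hSκ, hSκ', hcl⟩ := exists_closed_pair hK hν hκ hκ2 hf.mem_left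
    hf.mem_right hM hN
    (fun T => A ∪ ⋃ R : {R : Set (M × N) // R ⊆ T}, WA R.1)
    (fun T => (⋃ R : {R : Set (M × N) // R ⊆ T}, WB R.1) ∪ f '' (Prod.fst '' T))
    (fun T hT => (mk_union_le _ _).trans (add_le_of_le hκ0 (hA.trans hνκ)
      (mk_iUnion_subsets_le hκ0 h2ν T hT WA fun R => (hWA R).trans hνκ)))
    (fun T hT => (mk_union_le _ _).trans (add_le_of_le hκ0
      (mk_iUnion_subsets_le hκ0 h2ν T hT WB fun R => (hWB R).trans hνκ)
      ((mk_image_le.trans (mk_image_le.trans hT)).trans hνκ)))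
  have hAS : A ⊆ S := fun a ha => (hcl ∅ (by simp) (by simp)).1 (Or.inl ha)
  have hne : Nonempty S' := by
    rw [← mk_ne_zero_iff]
    have h : #S' = κ := hSκ'
    rw [h]
    exact (aleph0_pos.trans_le hκ0).ne'
  have hfS : ∀ s ∈ S, f s ∈ S' := by
    intro s hs
    refine (hcl {(s, (Classical.arbitrary S').1)} (by
      rw [mk_singleton]; exact one_le_aleph0.trans hν0) ?_).2 (Or.inr ?_)
    · rintro p rfl
      exact ⟨hs, (Classical.arbitrary S').2⟩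
    · exact ⟨s, ⟨_, rfl, rfl⟩, rfl⟩
  let f' : S ↪[L] S' := (f.domRestrict S).codRestrict S' (fun c => hfS c.1 c.2)
  have hf' : K.Emb f' := by
    refine AEC.Emb.of_comp (g := S'.subtype) (AEC.emb_subtype.2 hS') ?_
    have h1 : S'.subtype.comp f' = f.comp S.subtype := by
      ext x
      rfl
    rw [h1]
    exact AEC.Emb.comp hf (AEC.emb_subtype.2 hS)
  -- the transfer of levels
  have key : ∀ γ, ∀ R₀ : Set (S × S'), R₀ ∈ Lev L S S' ν γ →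
      (Prod.map S.subtype S'.subtype '' R₀ : Set (M × N)) ∈ Lev L M N ν γ := by
    intro γ
    induction γ using WellFoundedLT.induction with
    | ind γ ih =>
    intro R₀ hR₀
    by_contra hcon
    have h1 : IsPI L (Prod.map S.subtype S'.subtype '' R₀ : Set (M × N)) :=
      isPI_map (Lev.isPI hR₀) _ _
    have h2 : #(Prod.map S.subtype S'.subtype '' R₀ : Set (M × N)) ≤ ν :=
      mk_image_le.trans (Lev.card hR₀)
    have h3 := hcl (Prod.map S.subtype S'.subtype '' R₀) h2 (by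
      rintro _ ⟨p, hp, rfl⟩
      exact ⟨p.1.2, p.2.2⟩)
    have h4 : WA (Prod.map S.subtype S'.subtype '' R₀) ⊆ S := fun a ha =>
      h3.1 (Or.inr (mem_iUnion.2 ⟨⟨_, Subset.rfl⟩, ha⟩))
    have h5 : WB (Prod.map S.subtype S'.subtype '' R₀) ⊆ S' := fun a ha =>
      h3.2 (Or.inl (mem_iUnion.2 ⟨⟨_, Subset.rfl⟩, ha⟩))
    obtain ⟨β, h6, h7 | h7⟩ := hW _ h1 h2 γ hcon
    · obtain ⟨R', h8, h9, h10⟩ := ((mem_lev_iff.1 hR₀).2.2 β h6).1
        (Subtype.val ⁻¹' WA (Prod.map S.subtype S'.subtype '' R₀))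
        ((mk_preimage_of_injective _ _ Subtype.val_injective).trans (hWA _))
      refine h7 ⟨_, ih β h6 R' h8, image_mono h9, fun a ha => ?_⟩
      obtain ⟨b, hb⟩ := h10 ⟨a, h4 ha⟩ ha
      exact ⟨b.1, _, hb, rfl⟩
    · obtain ⟨R', h8, h9, h10⟩ := ((mem_lev_iff.1 hR₀).2.2 β h6).2
        (Subtype.val ⁻¹' WB (Prod.map S.subtype S'.subtype '' R₀))
        ((mk_preimage_of_injective _ _ Subtype.val_injective).trans (hWB _))
      refine h7 ⟨_, ih β h6 R' h8, image_mono h9, fun b hb => ?_⟩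
      obtain ⟨a, ha⟩ := h10 ⟨b, h5 hb⟩ hb
      exact ⟨a.1, _, ha, rfl⟩
  refine good_of_lev fun γ => ?_
  have h1 := H S S' f' hf' hSκ hSκ' (Subtype.val ⁻¹' A)
    ((mk_preimage_of_injective _ _ Subtype.val_injective).trans hA)
  refine Lev.subset (key γ _ (lev_of_good h1 γ)) ?_
  rintro p hp
  obtain ⟨h2, h3⟩ := mem_gr.1 hp
  refine ⟨(⟨p.1, hAS h2⟩, f' ⟨p.1, hAS h2⟩), mem_gr.2 ⟨h2, rfl⟩, ?_⟩
  exact Prod.ext rfl h3.symm

end Vale.Agent.P307.H304
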