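import Vale.Agent.P307.H304.Chain

/-!
Strong embeddings between models of size `κ` are elementary for `L_{∞,ν⁺}`.
-/

universe u

open FirstOrder Cardinal Set

namespace Vale.Agent.P307.H304

variable {L : Language.{u, u}} {K : AEC L} {Ω : Type u} {κ ν : Cardinal.{u}}
  {M₀ : Type u} [L.Structure M₀] {β : Ordinal.{u}}

/-- The requirement `(Q, C)` is met in `x`. -/
def Meets (ν : Cardinal.{u}) (β : Ordinal.{u}) (Q : Set (Ω × M₀)) (C : Set M₀)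
    (x : Pt K Ω κ) : Prop :=
  ∃ R' ∈ Lev L x.s M₀ ν β, Q ⊆ Prod.map Subtype.val id '' R' ∧ CovR R' C

/-- The hypothesis of the induction. -/
def GrLev (K : AEC L) (κ ν : Cardinal.{u}) (β : Ordinal.{u}) : Prop :=
  ∀ (M N : Type u) [L.Structure M] [L.Structure N] (f : M ↪[L] N), K.Emb f → #M = κ → #N = κ →
    ∀ A : Set M, #A ≤ ν → gr f A ∈ Lev L M N ν β

theorem Meets.mono (ih : GrLev K κ ν β) {Q : Set (Ω × M₀)} {C : Set M₀} {x y : Pt K Ω κ}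
    (hxy : x ≤ y) (h : Meets ν β Q C x) : Meets ν β Q C y := by
  obtain ⟨f, hf⟩ := hxy
  obtain ⟨R', h1, h2, h3⟩ := h
  refine ⟨Prod.map f id '' R', Lev.map_left h1 (ih _ _ f hf.1 x.card y.card _
    (mk_image_le.trans (Lev.card h1))), ?_, ?_⟩
  · intro q hq
    obtain ⟨p, hp, rfl⟩ := h2 hq
    exact ⟨_, ⟨p, hp, rfl⟩, Prod.ext (hf.2 _) rfl⟩
  · intro c hc
    obtain ⟨a, ha⟩ := h3 c hc
    exact ⟨f a, _, ha, rfl⟩

theorem chB_pt (hκ : ℵ₀ ≤ κ) : ChB (Pt K Ω κ) κ := by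
  intro ι _ _ hι c hc
  obtain ⟨z, -, hz⟩ := exists_union hκ hι c hc
  exact ⟨z, hz⟩

/-- The requirements over `x`. -/
abbrev Req (M₀ : Type u) (ν : Cardinal.{u}) (x : Pt K Ω κ) : Type u :=
  {t : Set (Ω × M₀) // t ⊆ x.s ×ˢ Set.univ ∧ #t ≤ ν} × {t : Set M₀ // t ⊆ Set.univ ∧ #t ≤ ν}

theorem mk_req_le (hκ0 : ℵ₀ ≤ κ) (hκ : κ ^ ν = κ) (hM₀ : #M₀ = κ) (x : Pt K Ω κ) :
    #(Req M₀ ν x) ≤ κ := by
  rw [mk_prod, lift_id, lift_id]
  refine (mul_le_mul' (b := κ) (d := κ) ?_ ?_).trans_eq (mul_eq_self hκ0)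
  · refine (mk_bounded_subset_le _ _).trans ?_
    refine (power_le_power_right (max_le ?_ hκ0)).trans_eq hκ
    rw [mk_setProd, x.card, mk_univ, hM₀, mul_eq_self hκ0]
  · refine (mk_bounded_subset_le _ _).trans ?_
    refine (power_le_power_right (max_le ?_ hκ0)).trans_eq hκ
    rw [mk_univ, hM₀]

theorem exists_complete (hν0 : ℵ₀ ≤ ν) (hνκ : ν < κ) (hκ : κ ^ ν = κ) (hM₀ : #M₀ = κ)
    (ih : GrLev K κ ν β) (x₀ : Pt K Ω κ) :
    ∃ w : Pt K Ω κ, ∀ (Q : Set (Ω × M₀)) (C : Set M₀), Q ⊆ w.s ×ˢ Set.univ → #Q ≤ ν → #C ≤ ν →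
      (∃ z, w ≤ z ∧ Meets ν β Q C z) → Meets ν β Q C w := by
  have hκ0 : ℵ₀ ≤ κ := hν0.trans hνκ.le
  have h1 : ∀ x : Pt K Ω κ, ∃ y, x ≤ y ∧ ∀ q : Req M₀ ν x, (∃ z, y ≤ z ∧
      Meets ν β q.1.1 q.2.1 z) → Meets ν β q.1.1 q.2.1 y := fun x =>
    exists_ge_forall (chB_pt hκ0) x (mk_req_le hκ0 hκ hM₀ x)
      (fun q y => Meets ν β q.1.1 q.2.1 y) (fun q x y hxy h => Meets.mono ih hxy h)
  choose st hst1 hst2 using h1
  obtain ⟨b, -, hb⟩ := exists_chain (chB_pt hκ0) x₀ (SuccTy ν)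
    (fun i => (mk_Iio_succTy i).trans hνκ.le) (fun _ => st) (fun _ => hst1)
  obtain ⟨i₀, -⟩ := exists_gt_of_small hν0 (∅ : Set (SuccTy ν)) (by simp)
  have hne : Nonempty (SuccTy ν) := ⟨i₀⟩
  obtain ⟨w, hw1, hw2⟩ := exists_union hκ0 (ι := SuccTy ν) (by
    simpa only [mk_toType, card_ord, Order.succ_le_iff] using Order.succ_le_of_lt hνκ)
    (fun i => st (b i)) (by
    intro i j hij
    rcases eq_or_lt_of_le hij with h | h
    · rw [h]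
    · exact (hb i j h).trans (hst1 _))
  refine ⟨w, fun Q C hQ hQν hCν hz => ?_⟩
  obtain ⟨z, hz1, hz2⟩ := hz
  have h2 : ∀ p : Q, ∃ i, p.1.1 ∈ (st (b i)).s := fun p => by
    have h3 := (hQ p.2).1
    rw [hw1] at h3
    exact mem_iUnion.1 h3
  choose g hg using h2
  obtain ⟨i, hi⟩ := exists_gt_of_small hν0 (Set.range g) (mk_range_le.trans hQν)
  have h3 : Q ⊆ (b i).s ×ˢ Set.univ := fun p hp =>
    ⟨subset_of_le (hb _ _ (hi _ ⟨⟨p, hp⟩, rfl⟩)) (hg ⟨p, hp⟩), trivial⟩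
  exact Meets.mono ih (hw2 i) (hst2 (b i) (⟨Q, h3, hQν⟩, ⟨C, subset_univ _, hCν⟩)
    ⟨z, (hw2 i).trans hz1, hz2⟩)

theorem exists_back (hν0 : ℵ₀ ≤ ν) (hνκ : ν < κ) (hκ : κ ^ ν = κ) (hcat : K.CategoricalIn κ)
    (ih : GrLev K κ ν β) {M N : Type u} [L.Structure M] [L.Structure N] (f : M ↪[L] N)
    (hf : K.Emb f) (hM : #M = κ) (hN : #N = κ) (A : Set M) (hA : #A ≤ ν) (B : Set N)
    (hB : #B ≤ ν) : ∃ R' ∈ Lev L M N ν β, gr f A ⊆ R' ∧ CovR R' B := by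
  have hκ0 : ℵ₀ ≤ κ := hν0.trans hνκ.le
  have hΩ : κ < #(Order.succ κ).out := by
    rw [mk_out]
    exact Order.lt_succ κ
  obtain ⟨x₀, -⟩ := exists_pt (K := K) hΩ hM hf.mem_left
  obtain ⟨w, hw⟩ := exists_complete (M₀ := N) hν0 hνκ hκ hN ih x₀
  obtain ⟨e⟩ := hcat.2 M w.s hf.mem_left w.mem hM w.card
  have hg : K.Emb (f.comp e.symm.toEmbedding) := AEC.Emb.comp hf (AEC.Emb.of_equiv e.symm w.mem)
  obtain ⟨z, h, hwz, hh⟩ := exists_room hκ0 hΩ w hN (f.comp e.symm.toEmbedding) hg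
  have hhf : ∀ a, (h (f a)).1 = (e a).1 := by
    intro a
    have h1 := hh (e a)
    have h2 : (f.comp e.symm.toEmbedding) (e a) = f a := by
      change f (e.symm (e a)) = f a
      rw [e.symm_apply_apply]
    rwa [h2] at h1
  obtain ⟨R', h1, h2, h3⟩ := hw ((fun a => ((e a).1, f a)) '' A) B (by
      rintro _ ⟨a, -, rfl⟩
      exact ⟨(e a).2, trivial⟩) (mk_image_le.trans hA) hB ⟨z, hwz, gr h.symm (h '' (f '' A ∪ B)),
    lev_of_good (good_gr_equiv hν0 h.symm (mk_image_le.trans ((mk_union_le _ _).trans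
      (add_le_of_le hν0 (mk_image_le.trans hA) hB)))) β, by
      rintro _ ⟨a, ha, rfl⟩
      refine ⟨(h (f a), f a), mem_gr.2 ⟨⟨f a, Or.inl ⟨a, ha, rfl⟩, rfl⟩, ?_⟩, ?_⟩
      · exact (h.symm_apply_apply _).symm
      · exact Prod.ext (hhf a) rfl, by
      intro b hb
      exact ⟨h b, mem_gr.2 ⟨⟨b, Or.inr hb, rfl⟩, (h.symm_apply_apply _).symm⟩⟩⟩
  refine ⟨Prod.map e.symm id '' R', Lev.map_left h1 (lev_of_good (good_gr_equiv hν0 e.symm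
    (mk_image_le.trans (Lev.card h1))) β), ?_, ?_⟩
  · intro p hp
    obtain ⟨hp1, hp2⟩ := mem_gr.1 hp
    obtain ⟨q, hq, hqp⟩ := h2 ⟨p.1, hp1, rfl⟩
    have h4 : q.1 = e p.1 := Subtype.ext (congrArg Prod.fst hqp)
    have h5 : q.2 = f p.1 := congrArg Prod.snd hqp
    refine ⟨q, hq, Prod.ext ?_ ?_⟩
    · change e.symm q.1 = p.1
      rw [h4, e.symm_apply_apply]
    · exact h5.trans hp2.symm
  · intro b hb
    obtain ⟨a, ha⟩ := h3 b hb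
    exact ⟨e.symm a, _, ha, rfl⟩

theorem grLev (hν0 : ℵ₀ ≤ ν) (hνκ : ν < κ) (hκ : κ ^ ν = κ) (hcat : K.CategoricalIn κ)
    (γ : Ordinal.{u}) : GrLev K κ ν γ := by
  induction γ using WellFoundedLT.induction with
  | ind γ ih =>
  intro M N _ _ f hf hM hN A hA
  rw [mem_lev_iff]
  refine ⟨isPI_gr f A, (mk_gr_le _ _).trans hA, fun β hβ => ⟨fun A' hA' => ?_, fun B hB => ?_⟩⟩
  · refine ⟨gr f (A ∪ A'), ih β hβ M N f hf hM hN _ ((mk_union_le _ _).trans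
      (add_le_of_le hν0 hA hA')), image_mono subset_union_left, fun a ha => ?_⟩
    exact ⟨f a, a, Or.inr ha, rfl⟩
  · exact exists_back hν0 hνκ hκ hcat (ih β hβ) f hf hM hN A hA B hB

/-- Strong embeddings between large models of a class which is categorical in `κ = κ ^ ν`. -/
theorem good_gr {ℓ : Cardinal.{u}} (hK : K.IsLS ℓ) (hν : ℓ ≤ ν) (hνκ : ν < κ) (hκ : κ ^ ν = κ)
    (hcat : K.CategoricalIn κ) {M N : Type u} [L.Structure M] [L.Structure N] (f : M ↪[L] N)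
    (hf : K.Emb f) (hM : κ ≤ #M) (A : Set M) (hA : #A ≤ ν) : Good L ν (gr f A) := by
  have hν0 : ℵ₀ ≤ ν := hK.1.trans hν
  refine good_gr_of_size hK hν hκ (two_le_of_unb hν0 hνκ) ?_ f hf hM A hA
  intro M N _ _ f hf hM hN A hA
  exact good_of_lev fun γ => grLev hν0 hνκ hκ hcat γ M N f hf hM hN A hA

end Vale.Agent.P307.H304
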