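import Vale.Agent.P307.H304.InfDefs
import Vale.Agent.P307.H304.Main

/-!
Karp's theorem.
-/

universe u

open FirstOrder Cardinal Set

namespace Vale.Agent.P307.H304

variable {L : Language.{u, u}} {M N : Type u} [L.Structure M] [L.Structure N]

/-- `F` is a back-and-forth system of partial isomorphisms of size less than `θ`. -/
structure IsSys (L : Language.{u, u}) {M N : Type u} [L.Structure M] [L.Structure N]
    (θ : Cardinal.{u}) (F : Set (Set (M × N))) : Prop where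
  isPI : ∀ R ∈ F, IsPI L R
  card : ∀ R ∈ F, #R < θ
  forth : ∀ R ∈ F, ∀ A : Set M, #A < θ → ∃ R' ∈ F, R ⊆ R' ∧ ∀ a ∈ A, ∃ b, (a, b) ∈ R'
  back : ∀ R ∈ F, ∀ B : Set N, #B < θ → ∃ R' ∈ F, R ⊆ R' ∧ ∀ b ∈ B, ∃ a, (a, b) ∈ R'

theorem realize_mem_of_cover {X : Type u} {R : Set (M × N)} (hR : IsPI L R) {v : X → M}
    {w : X → N} (hvw : ∀ x, (v x, w x) ∈ R) (hc : ∀ t : L.Term X, ∃ b, (t.realize v, b) ∈ R)
    (t : L.Term X) : (t.realize v, t.realize w) ∈ R := by
  induction t with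
  | var x => exact hvw x
  | func f ts ih =>
    obtain ⟨b, hb⟩ := hc (Language.Term.func f ts)
    have h1 := (hR.fun_iff f (fun i => ((ts i).realize v, (ts i).realize w)) ih _ hb).1 rfl
    have h2 : (Language.Term.func f ts).realize w = b := h1
    rw [h2]
    exact hb

theorem IsSys.exists_term {θ : Cardinal.{u}} {F : Set (Set (M × N))} (hF : IsSys L θ F)
    (hθ : ℵ₀ < θ) (hL : L.card < θ) {R : Set (M × N)} (hR : R ∈ F) {X : Type u} (hX : #X < θ)
    {v : X → M} {w : X → N} (hvw : ∀ x, (v x, w x) ∈ R) :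
    ∃ R' ∈ F, ∀ t : L.Term X, (t.realize v, t.realize w) ∈ R' := by
  have h1 : #(L.Term X) < θ := by
    have h2 : #(L.Term X) ≤ max ℵ₀ (max L.card #X) :=
      mk_term_le (le_max_left _ _) ((le_max_left _ _).trans (le_max_right _ _)) X
        ((le_max_right _ _).trans (le_max_right _ _))
    exact h2.trans_lt (max_lt hθ (max_lt hL hX))
  obtain ⟨R', h2, h3, h4⟩ := hF.forth R hR (Set.range fun t : L.Term X => t.realize v)
    (mk_range_le.trans_lt h1)
  exact ⟨R', h2, realize_mem_of_cover (hF.isPI R' h2) (fun x => h3 (hvw x))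
    (fun t => h4 _ ⟨t, rfl⟩)⟩

/-- Positions of a back-and-forth system preserve all formulas of `L_{∞,θ}`. -/
theorem IsSys.sat_iff {θ : Cardinal.{u}} {F : Set (Set (M × N))} (hF : IsSys L θ F)
    (hθ : ℵ₀ < θ) (hL : L.card < θ) {X : Type u} (φ : Fml L θ X) :
    ∀ {R : Set (M × N)}, R ∈ F → #X < θ → ∀ {v : X → M} {w : X → N},
      (∀ x, (v x, w x) ∈ R) → (φ.Sat v ↔ φ.Sat w) := by
  induction φ with
  | eq s t =>
    intro R hR hX v w hvw
    obtain ⟨R', h1, h2⟩ := hF.exists_term hθ hL hR hX hvw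
    exact (hF.isPI R' h1).eq_iff _ (h2 s) _ (h2 t)
  | rel r ts =>
    intro R hR hX v w hvw
    obtain ⟨R', h1, h2⟩ := hF.exists_term hθ hL hR hX hvw
    exact (hF.isPI R' h1).rel_iff r (fun i => ((ts i).realize v, (ts i).realize w))
      (fun i => h2 (ts i))
  | not φ ih =>
    intro R hR hX v w hvw
    exact not_congr (ih hR hX hvw)
  | conj φ ih =>
    intro R hR hX v w hvw
    exact forall_congr' fun i => ih i hR hX hvw
  | all hY φ ih =>
    intro R hR hX v w hvw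
    constructor
    · intro h b
      obtain ⟨R', h1, h2, h3⟩ := hF.back R hR (Set.range b) (mk_range_le.trans_lt hY)
      choose a ha using fun y => h3 (b y) ⟨y, rfl⟩
      refine (ih h1 ?_ ?_).1 (h a)
      · rw [mk_sum, lift_id, lift_id]
        exact add_lt_of_lt hθ.le hX hY
      · rintro (x | y)
        · exact h2 (hvw x)
        · exact ha y
    · intro h a
      obtain ⟨R', h1, h2, h3⟩ := hF.forth R hR (Set.range a) (mk_range_le.trans_lt hY)
      choose b hb using fun y => h3 (a y) ⟨y, rfl⟩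
      refine (ih h1 ?_ ?_).2 (h b)
      · rw [mk_sum, lift_id, lift_id]
        exact add_lt_of_lt hθ.le hX hY
      · rintro (x | y)
        · exact h2 (hvw x)
        · exact hb y

/-- The positions preserving all formulas. -/
def SatSys (L : Language.{u, u}) (M N : Type u) [L.Structure M] [L.Structure N]
    (θ : Cardinal.{u}) : Set (Set (M × N)) :=
  {R | ∃ (X : Type u) (v : X → M) (w : X → N), #X < θ ∧ R = Set.range (fun x => (v x, w x)) ∧
    ∀ φ : Fml L θ X, φ.Sat v ↔ φ.Sat w}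

theorem exists_sat_extend {θ : Cardinal.{u}} {X Y : Type u} (hY : #Y < θ) {v : X → M} {w : X → N}
    (h : ∀ φ : Fml L θ X, φ.Sat v ↔ φ.Sat w) (a : Y → M) :
    ∃ b : Y → N, ∀ φ : Fml L θ (X ⊕ Y), φ.Sat (Sum.elim v a) ↔ φ.Sat (Sum.elim w b) := by
  by_contra hcon
  have h1 : ∀ b : Y → N, ∃ φ : Fml L θ (X ⊕ Y), φ.Sat (Sum.elim v a) ∧
      ¬ φ.Sat (Sum.elim w b) := by
    intro b
    by_contra hb
    refine hcon ⟨b, fun φ => ⟨fun h2 => ?_, fun h2 => ?_⟩⟩
    · by_contra h3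
      exact hb ⟨φ, h2, h3⟩
    · by_contra h3
      exact hb ⟨φ.not, h3, fun h4 => h4 h2⟩
  choose φ hφ1 hφ2 using h1
  have h2 := h (Fml.not (Fml.all hY (Fml.not (Fml.conj φ))))
  have h3 : (Fml.not (Fml.all hY (Fml.not (Fml.conj φ)))).Sat v := by
    intro h4
    exact h4 a hφ1
  have h4 := h2.1 h3
  apply h4
  intro b hb
  exact hφ2 b (hb b)

theorem isPI_of_sat {θ : Cardinal.{u}} {X : Type u} {v : X → M} {w : X → N}
    (h : ∀ φ : Fml L θ X, φ.Sat v ↔ φ.Sat w) :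
    IsPI L (Set.range (fun x => (v x, w x)) : Set (M × N)) where
  eq_iff := by
    rintro _ ⟨x, rfl⟩ _ ⟨y, rfl⟩
    exact h (Fml.eq (Language.Term.var x) (Language.Term.var y))
  fun_iff := by
    rintro n f z hz _ ⟨y, rfl⟩
    choose x hx using hz
    have h1 := h (Fml.eq (Language.Term.func f fun i => Language.Term.var (x i))
      (Language.Term.var y))
    have h2 : z = fun i => (v (x i), w (x i)) := by
      funext i
      exact (hx i).symm
    rw [h2]
    exact h1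
  rel_iff := by
    rintro n r z hz
    choose x hx using hz
    have h1 := h (Fml.rel r fun i => Language.Term.var (x i))
    have h2 : z = fun i => (v (x i), w (x i)) := by
      funext i
      exact (hx i).symm
    rw [h2]
    exact h1

/-- Karp's theorem: formulas give a back-and-forth system. -/
theorem isSys_satSys {θ : Cardinal.{u}} (hθ : ℵ₀ ≤ θ) : IsSys L θ (SatSys L M N θ) where
  isPI := by
    rintro _ ⟨X, v, w, -, rfl, h⟩
    exact isPI_of_sat h
  card := by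
    rintro _ ⟨X, v, w, hX, rfl, h⟩
    exact mk_range_le.trans_lt hX
  forth := by
    rintro _ ⟨X, v, w, hX, rfl, h⟩ A hA
    obtain ⟨b, hb⟩ := exists_sat_extend hA h (fun a : A => a.1)
    refine ⟨_, ⟨X ⊕ A, Sum.elim v (fun a : A => a.1), Sum.elim w b, ?_, rfl, hb⟩, ?_, ?_⟩
    · rw [mk_sum, lift_id, lift_id]
      exact add_lt_of_lt hθ hX hA
    · rintro _ ⟨x, rfl⟩
      exact ⟨Sum.inl x, rfl⟩
    · intro a ha
      exact ⟨b ⟨a, ha⟩, Sum.inr ⟨a, ha⟩, rfl⟩
  back := by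
    rintro _ ⟨X, v, w, hX, rfl, h⟩ B hB
    obtain ⟨a, ha⟩ := exists_sat_extend hB (fun φ => (h φ).symm) (fun b : B => b.1)
    refine ⟨_, ⟨X ⊕ B, Sum.elim v a, Sum.elim w (fun b : B => b.1), ?_, rfl,
      fun φ => (ha φ).symm⟩, ?_, ?_⟩
    · rw [mk_sum, lift_id, lift_id]
      exact add_lt_of_lt hθ hX hB
    · rintro _ ⟨x, rfl⟩
      exact ⟨Sum.inl x, rfl⟩
    · intro b hb
      exact ⟨a ⟨b, hb⟩, Sum.inr ⟨b, hb⟩, rfl⟩

/-- Positions below a position of a system are good. -/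
theorem IsSys.good {θ ℓ : Cardinal.{u}} {F : Set (Set (M × N))} (hF : IsSys L θ F)
    (hℓ : ℵ₀ ≤ ℓ) (hℓθ : ℓ < θ) {R R₀ : Set (M × N)} (hR : R ∈ F) (h : R₀ ⊆ R) (hc : #R₀ ≤ ℓ) :
    Good L ℓ R₀ := by
  refine good_of_system {R₀ | #R₀ ≤ ℓ ∧ ∃ R ∈ F, R₀ ⊆ R} ?_ ?_ ?_ ⟨hc, R, hR, h⟩
  · rintro R₀ ⟨h1, R, h2, h3⟩
    exact ⟨(hF.isPI R h2).mono h3, h1⟩
  · rintro R₀ ⟨h1, R, h2, h3⟩ A hA
    obtain ⟨R', h4, h5, h6⟩ := hF.forth R h2 A (hA.trans_lt hℓθ)
    obtain ⟨R'', h7, h8, h9, h10⟩ := exists_trim hℓ (h3.trans h5) h1 A hA h6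
    exact ⟨R'', ⟨h9, R', h4, h8⟩, h7, h10⟩
  · rintro R₀ ⟨h1, R, h2, h3⟩ B hB
    obtain ⟨R', h4, h5, h6⟩ := hF.back R h2 B (hB.trans_lt hℓθ)
    obtain ⟨R'', h7, h8, h9, h10⟩ := exists_trim (M := N) (N := M) hℓ
      (R := Prod.swap ⁻¹' R₀) (R' := Prod.swap ⁻¹' R') (preimage_mono (h3.trans h5))
      ((mk_swap R₀).trans_le h1) B hB h6
    exact ⟨Prod.swap ⁻¹' R'', ⟨(mk_swap R'').trans_le h9, R', h4, fun p hp => h8 hp⟩,
      fun p hp => h7 (a := p.swap) hp, h10⟩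

end Vale.Agent.P307.H304
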