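import Mathlib.ModelTheory.Semantics
import Mathlib.ModelTheory.Substructures

universe u

open FirstOrder Cardinal

namespace Vale.Agent.P307.H304

/-- The formulas of the infinitary logic `L_{∞,θ}` with free variables in `X`: equations and
relations between terms, negations, conjunctions of arbitrary families and universal quantifiers
over blocks `Y` of fewer than `θ` variables. -/
inductive Fml (L : Language.{u, u}) (θ : Cardinal.{u}) : Type u → Type (u + 1)
  | eq {X : Type u} (s t : L.Term X) : Fml L θ X
  | rel {X : Type u} {n : ℕ} (r : L.Relations n) (ts : Fin n → L.Term X) : Fml L θ X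
  | not {X : Type u} (φ : Fml L θ X) : Fml L θ X
  | conj {X ι : Type u} (φ : ι → Fml L θ X) : Fml L θ X
  | all {X Y : Type u} (hY : #Y < θ) (φ : Fml L θ (X ⊕ Y)) : Fml L θ X

/-- Satisfaction of a formula of `L_{∞,θ}` under the assignment `v`. -/
def Fml.Sat {L : Language.{u, u}} {θ : Cardinal.{u}} {M : Type u} [L.Structure M] {X : Type u}
    (φ : Fml L θ X) (v : X → M) : Prop :=
  match φ with
  | .eq s t => s.realize v = t.realize v
  | .rel r ts => Language.Structure.RelMap r (fun i => (ts i).realize v)
  | .not φ => ¬ φ.Sat v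
  | .conj φ => ∀ i, (φ i).Sat v
  | .all _ φ => ∀ w, φ.Sat (Sum.elim v w)

/-- `M` and `N` satisfy the same sentences of `L_{∞,θ}`. -/
def InfEq (L : Language.{u, u}) (θ : Cardinal.{u}) (M N : Type u) [L.Structure M]
    [L.Structure N] : Prop :=
  ∀ φ : Fml L θ PEmpty.{u + 1}, φ.Sat (fun x : PEmpty.{u + 1} => (x.elim : M)) ↔
    φ.Sat (fun x : PEmpty.{u + 1} => (x.elim : N))

/-- `S` is an elementary substructure of `N` for `L_{∞,θ}`: the same formulas with fewer than `θ`
free variables hold in `S` and in `N` for all tuples of `S`. -/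
def InfElem (L : Language.{u, u}) (θ : Cardinal.{u}) {N : Type u} [L.Structure N]
    (S : L.Substructure N) : Prop :=
  ∀ X : Type u, #X < θ → ∀ (φ : Fml L θ X) (v : X → S),
    φ.Sat v ↔ φ.Sat (fun x => (v x : N))

end Vale.Agent.P307.H304
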