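import Vale.Agent.P307.H304.Inf

/-!
Abstract elementary classes are closed under infinitary equivalence.
-/

universe u

open FirstOrder Cardinal Set

namespace Vale.Agent.P307.H304

variable {L : Language.{u, u}} {K : AEC L} {M N : Type u} [L.Structure M] [L.Structure N]
  {l : Cardinal.{u}}

theorem mk_iUnion_finset_le {X Y : Type u} (hl : ℵ₀ ≤ l) (D : Set X) (hD : #D ≤ l)
    (c : Finset X → Set Y) (hc : ∀ a, #(c a) ≤ l) :
    #(⋃ a : {a : Finset X // (a : Set X) ⊆ D}, c a.1 : Set Y) ≤ l := by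
  classical
  refine mk_iUnion_le_of_le hl ?_ _ fun a => hc a.1
  refine le_trans ?_ (AEC.mk_finset_le D hl hD)
  refine mk_le_of_injective (f := fun a : {a : Finset X // (a : Set X) ⊆ D} =>
    (a.1.subtype (· ∈ D))) ?_
  intro a b hab
  apply Subtype.ext
  ext x
  constructor
  · intro hx
    have h : (⟨x, a.2 hx⟩ : D) ∈ a.1.subtype (· ∈ D) := Finset.mem_subtype.2 hx
    have h' : (⟨x, a.2 hx⟩ : D) ∈ b.1.subtype (· ∈ D) := by
      have hab' : a.1.subtype (· ∈ D) = b.1.subtype (· ∈ D) := hab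
      rwa [hab'] at h
    exact Finset.mem_subtype.1 h'
  · intro hx
    have h : (⟨x, b.2 hx⟩ : D) ∈ b.1.subtype (· ∈ D) := Finset.mem_subtype.2 hx
    have h' : (⟨x, b.2 hx⟩ : D) ∈ a.1.subtype (· ∈ D) := by
      have hab' : a.1.subtype (· ∈ D) = b.1.subtype (· ∈ D) := hab
      rwa [← hab'] at h
    exact Finset.mem_subtype.1 h'

/-- A good position is contained in a partial isomorphism whose domain and range are closed. -/
theorem exists_closed_pi (hl : ℵ₀ ≤ l) {R : Set (M × N)} (hR : Good L l R)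
    (c : Finset M → Set M) (hc : ∀ a, #(c a) ≤ l) (d : Finset N → Set N)
    (hd : ∀ b, #(d b) ≤ l) :
    ∃ π : Set (M × N), R ⊆ π ∧ IsPI L π ∧
      (∀ a : Finset M, (a : Set M) ⊆ Prod.fst '' π → c a ⊆ Prod.fst '' π) ∧
      (∀ b : Finset N, (b : Set N) ⊆ Prod.snd '' π → d b ⊆ Prod.snd '' π) := by
  classical
  have step : ∀ R : {R : Set (M × N) // Good L l R}, ∃ R' : {R : Set (M × N) // Good L l R},
      R.1 ⊆ R'.1 ∧ (∀ a : Finset M, (a : Set M) ⊆ Prod.fst '' R.1 → c a ⊆ Prod.fst '' R'.1) ∧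
      (∀ b : Finset N, (b : Set N) ⊆ Prod.snd '' R.1 → d b ⊆ Prod.snd '' R'.1) := by
    rintro ⟨R, hR⟩
    obtain ⟨R₁, h1, h2, h3⟩ := hR.exists_left
      (⋃ a : {a : Finset M // (a : Set M) ⊆ Prod.fst '' R}, c a.1)
      (mk_iUnion_finset_le hl _ (mk_image_le.trans hR.2.1) c hc)
    obtain ⟨R₂, h4, h5, h6⟩ := h2.exists_right
      (⋃ b : {b : Finset N // (b : Set N) ⊆ Prod.snd '' R}, d b.1)
      (mk_iUnion_finset_le hl _ (mk_image_le.trans hR.2.1) d hd)
    refine ⟨⟨R₂, h5⟩, h1.trans h4, fun a ha x hx => ?_, fun b hb y hy => ?_⟩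
    · obtain ⟨z, hz⟩ := h3 x (mem_iUnion.2 ⟨⟨a, ha⟩, hx⟩)
      exact ⟨_, h4 hz, rfl⟩
    · obtain ⟨z, hz⟩ := h6 y (mem_iUnion.2 ⟨⟨b, hb⟩, hy⟩)
      exact ⟨_, hz, rfl⟩
  choose nx hn1 hn2 hn3 using step
  let q : ℕ → {R : Set (M × N) // Good L l R} := fun n => Nat.rec ⟨R, hR⟩ (fun _ R => nx R) n
  have hmono : Monotone fun n => (q n).1 := monotone_nat_of_le_succ fun n => hn1 (q n)
  have hfin1 : ∀ a : Finset M, (a : Set M) ⊆ Prod.fst '' (⋃ n, (q n).1) →
      ∃ n, (a : Set M) ⊆ Prod.fst '' (q n).1 := by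
    intro a
    induction a using Finset.induction_on with
    | empty => intro _; exact ⟨0, by simp⟩
    | insert x s _ ih =>
      intro h
      obtain ⟨n, hn⟩ := ih fun y hy => h (by
        rw [Finset.coe_insert]
        exact Or.inr hy)
      obtain ⟨p, hp, hpx⟩ := h (a := x) (by simp)
      obtain ⟨m, hm⟩ := mem_iUnion.1 hp
      refine ⟨max n m, ?_⟩
      rw [Finset.coe_insert]
      rintro y (rfl | hy)
      · exact ⟨p, hmono (le_max_right n m) hm, hpx⟩
      · exact image_mono (hmono (le_max_left n m)) (hn hy)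
  have hfin2 : ∀ a : Finset N, (a : Set N) ⊆ Prod.snd '' (⋃ n, (q n).1) →
      ∃ n, (a : Set N) ⊆ Prod.snd '' (q n).1 := by
    intro a
    induction a using Finset.induction_on with
    | empty => intro _; exact ⟨0, by simp⟩
    | insert x s _ ih =>
      intro h
      obtain ⟨n, hn⟩ := ih fun y hy => h (by
        rw [Finset.coe_insert]
        exact Or.inr hy)
      obtain ⟨p, hp, hpx⟩ := h (a := x) (by simp)
      obtain ⟨m, hm⟩ := mem_iUnion.1 hp
      refine ⟨max n m, ?_⟩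
      rw [Finset.coe_insert]
      rintro y (rfl | hy)
      · exact ⟨p, hmono (le_max_right n m) hm, hpx⟩
      · exact image_mono (hmono (le_max_left n m)) (hn hy)
  have hPI : IsPI L (⋃ n, (q n).1) := by
    have hfin : ∀ {k : ℕ} (x : Fin k → M × N), (∀ i, x i ∈ ⋃ n, (q n).1) →
        ∃ n, ∀ i, x i ∈ (q n).1 := by
      intro k x hx
      choose g hg using fun i => mem_iUnion.1 (hx i)
      exact ⟨Finset.univ.sup g, fun i => hmono (Finset.le_sup (Finset.mem_univ i)) (hg i)⟩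
    constructor
    · intro p hp q' hq
      obtain ⟨n, h1⟩ := mem_iUnion.1 hp
      obtain ⟨m, h2⟩ := mem_iUnion.1 hq
      exact (q (max n m)).2.1.eq_iff p (hmono (le_max_left n m) h1) q'
        (hmono (le_max_right n m) h2)
    · intro k f x hx q' hq
      obtain ⟨n, h1⟩ := hfin x hx
      obtain ⟨m, h2⟩ := mem_iUnion.1 hq
      exact (q (max n m)).2.1.fun_iff f x (fun i => hmono (le_max_left n m) (h1 i)) q'
        (hmono (le_max_right n m) h2)
    · intro k r x hx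
      obtain ⟨n, h1⟩ := hfin x hx
      exact (q n).2.1.rel_iff r x h1
  refine ⟨⋃ n, (q n).1, subset_iUnion (fun n => (q n).1) 0, hPI, fun a ha => ?_, fun b hb => ?_⟩
  · obtain ⟨n, hn⟩ := hfin1 a ha
    exact (hn2 (q n) a hn).trans (image_mono (subset_iUnion (fun n => (q n).1) (n + 1)))
  · obtain ⟨n, hn⟩ := hfin2 b hb
    exact (hn3 (q n) b hn).trans (image_mono (subset_iUnion (fun n => (q n).1) (n + 1)))

/-- Images of strong substructures under good positions. -/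
theorem le_of_good (hK : K.IsLS l) (hM : K.mem M) (hN : K.mem N) {R : Set (M × N)}
    (hR : Good L l R) {S : L.Substructure M} {T : L.Substructure N} (hS : K.le S)
    (h1 : (S : Set M) = Prod.fst '' R) (h2 : (T : Set N) = Prod.snd '' R) : K.le T := by
  obtain ⟨H, hH1, hH2, hH3, hH4⟩ := AEC.exists_hull' hK hM
  obtain ⟨H', hH1', hH2', hH3', hH4'⟩ := AEC.exists_hull' hK hN
  obtain ⟨π, h3, h4, h5, h6⟩ := exists_closed_pi hK.1 hR (fun a => (H a : Set M)) hH4
    (fun b => (H' b : Set N)) hH4'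
  obtain ⟨A, hA1, hA2⟩ := AEC.le_of_hull_closed hH1 hH2 hH3 _ h5
  obtain ⟨B, hB1, hB2⟩ := AEC.le_of_hull_closed hH1' hH2' hH3' _ h6
  obtain ⟨e, he⟩ := h4.exists_equiv_sub A B (by
    intro a ha
    rw [← SetLike.mem_coe, hA2] at ha
    obtain ⟨p, hp, rfl⟩ := ha
    exact ⟨p.2, by rw [← SetLike.mem_coe, hB2]; exact ⟨p, hp, rfl⟩, hp⟩) (by
    intro b hb
    rw [← SetLike.mem_coe, hB2] at hb
    obtain ⟨p, hp, rfl⟩ := hb
    exact ⟨p.1, by rw [← SetLike.mem_coe, hA2]; exact ⟨p, hp, rfl⟩, hp⟩)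
  have hSA : S ≤ A := by
    intro x hx
    rw [← SetLike.mem_coe, hA2]
    rw [← SetLike.mem_coe, h1] at hx
    exact image_mono h3 hx
  have hTB : T ≤ B := by
    intro x hx
    rw [← SetLike.mem_coe, hB2]
    rw [← SetLike.mem_coe, h2] at hx
    exact image_mono h3 hx
  have h7 : K.sle S A := AEC.sle_of_le_le hSA hS hA1
  have h8 : K.Emb e.toEmbedding := AEC.Emb.of_equiv e (K.mem_of_le _ hA1).1
  have h9 : K.Emb ((B.subtype.comp e.toEmbedding).comp (Language.Substructure.inclusion hSA)) :=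
    AEC.Emb.comp (AEC.Emb.comp (AEC.emb_subtype.2 hB1) h8) h7.2
  have h10 : ((B.subtype.comp e.toEmbedding).comp
      (Language.Substructure.inclusion hSA)).toHom.range = T := by
    ext y
    constructor
    · rintro ⟨x, rfl⟩
      have hx : x.1 ∈ (S : Set M) := x.2
      rw [h1] at hx
      obtain ⟨p, hp, hpx⟩ := hx
      have h11 := he ⟨x.1, hSA x.2⟩
      have h12 : p.2 = (e ⟨x.1, hSA x.2⟩ : N) := (h4.eq_iff p (h3 hp) _ h11).1 hpx
      rw [← SetLike.mem_coe, h2]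
      exact ⟨p, hp, h12⟩
    · intro hy
      rw [← SetLike.mem_coe, h2] at hy
      obtain ⟨p, hp, rfl⟩ := hy
      have hx : p.1 ∈ S := by
        rw [← SetLike.mem_coe, h1]
        exact ⟨p, hp, rfl⟩
      have h11 := he ⟨p.1, hSA hx⟩
      have h12 : p.2 = (e ⟨p.1, hSA hx⟩ : N) := (h4.eq_iff p (h3 hp) _ h11).1 rfl
      exact ⟨⟨p.1, hx⟩, h12.symm⟩
  have h11 : K.le ((B.subtype.comp e.toEmbedding).comp
      (Language.Substructure.inclusion hSA)).toHom.range := h9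
  rw [h10] at h11
  exact h11

/-- The range of a partial isomorphism defined on a substructure, inside a good position. -/
theorem exists_substructure {R : Set (M × N)} (hl : ℵ₀ ≤ l) (hL : L.card ≤ l) (hR : Good L l R)
    {S : L.Substructure M} (h1 : (S : Set M) = Prod.fst '' R) :
    ∃ T : L.Substructure N, (T : Set N) = Prod.snd '' R := by
  have key : ∀ {n : ℕ} (f : L.Functions n) (y : Fin n → N), (∀ i, y i ∈ Prod.snd '' R) →
      Language.Structure.funMap f y ∈ Prod.snd '' R := by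
    intro n f y hy
    choose p hp hpy using hy
    have hS : Language.Structure.funMap f (fun i => (p i).1) ∈ S := by
      refine S.fun_mem f _ fun i => ?_
      have : (p i).1 ∈ (S : Set M) := by
        rw [h1]
        exact ⟨p i, hp i, rfl⟩
      exact this
    rw [← SetLike.mem_coe, h1] at hS
    obtain ⟨r, hr, hrx⟩ := hS
    have h2 := (hR.1.fun_iff f p hp r hr).1 hrx.symm
    have h3 : y = fun i => (p i).2 := by
      funext i
      exact (hpy i).symm
    rw [h3, h2]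
    exact ⟨r, hr, rfl⟩
  exact ⟨⟨Prod.snd '' R, fun f y hy => key f y hy⟩, rfl⟩

/-- The cofinal family of positions. -/
theorem exists_pos (hK : K.IsLS l) (hM : K.mem M) {R : Set (M × N)} (hR : Good L l R)
    (B : Set N) (hB : #B ≤ l) :
    ∃ (R' : Set (M × N)) (S : L.Substructure M) (T : L.Substructure N), R ⊆ R' ∧ Good L l R' ∧
      K.le S ∧ (S : Set M) = Prod.fst '' R' ∧ (T : Set N) = Prod.snd '' R' ∧ B ⊆ T := by
  obtain ⟨R₁, h1, h2, h3⟩ := hR.exists_right B hB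
  obtain ⟨S, h4, h5, h6⟩ := hK.2.2 M hM (Prod.fst '' R₁)
  have h7 : #S ≤ l := h6.trans (add_le_of_le hK.1 (mk_image_le.trans h2.2.1) le_rfl)
  obtain ⟨R₂, h8, h9, h10⟩ := h2.exists_left (S : Set M) h7
  have h11 : Good L l {p | p ∈ R₂ ∧ p.1 ∈ S} := h9.subset fun p hp => hp.1
  have h12 : R₁ ⊆ {p | p ∈ R₂ ∧ p.1 ∈ S} := fun p hp => ⟨h8 hp, h5 ⟨p, hp, rfl⟩⟩
  have h13 : (S : Set M) = Prod.fst '' {p | p ∈ R₂ ∧ p.1 ∈ S} := by
    ext x
    constructor
    · intro hx
      obtain ⟨b, hb⟩ := h10 x hx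
      exact ⟨(x, b), ⟨hb, hx⟩, rfl⟩
    · rintro ⟨p, hp, rfl⟩
      exact hp.2
  obtain ⟨T, hT⟩ := exists_substructure hK.1 hK.2.1 h11 h13
  refine ⟨_, S, T, h1.trans h12, h11, h4, h13, hT, fun b hb => ?_⟩
  obtain ⟨a, ha⟩ := h3 b hb
  rw [hT]
  exact ⟨_, h12 ha, rfl⟩

/-- Coherence of the family of positions. -/
theorem sle_of_pos (hK : K.IsLS l) (hM : K.mem M) {R R' : Set (M × N)} (hR : Good L l R)
    (hR' : Good L l R') {S S' : L.Substructure M} {T T' : L.Substructure N} (hS : K.le S)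
    (hS' : K.le S') (h1 : (S : Set M) = Prod.fst '' R) (h1' : (S' : Set M) = Prod.fst '' R')
    (h2 : (T : Set N) = Prod.snd '' R) (h2' : (T' : Set N) = Prod.snd '' R') (hT : T ≤ T') :
    K.sle T T' := by
  -- the isomorphism from `T'` to `S'`
  obtain ⟨e, he⟩ := (IsPI.swap hR'.1).exists_equiv_sub T' S' (by
    intro b hb
    rw [← SetLike.mem_coe, h2'] at hb
    obtain ⟨p, hp, rfl⟩ := hb
    exact ⟨p.1, by rw [← SetLike.mem_coe, h1']; exact ⟨p, hp, rfl⟩, hp⟩) (by
    intro a ha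
    rw [← SetLike.mem_coe, h1'] at ha
    obtain ⟨p, hp, rfl⟩ := ha
    exact ⟨p.2, by rw [← SetLike.mem_coe, h2']; exact ⟨p, hp, rfl⟩, hp⟩)
  have hemb : K.Emb e.symm.toEmbedding := AEC.Emb.of_equiv _ (K.mem_of_le _ hS').1
  have hT'mem : K.mem T' := hemb.mem_right
  have hemb' : K.Emb e.toEmbedding := AEC.Emb.of_equiv _ hT'mem
  -- the image of `T` in `M`
  let f : T ↪[L] M := (S'.subtype.comp e.toEmbedding).comp (Language.Substructure.inclusion hT)
  have hf : ∀ b : T, ((f b : M), (b : N)) ∈ R' := fun b => he ⟨b.1, hT b.2⟩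
  have h3 : K.le f.toHom.range := by
    refine le_of_good hK hM hM (R := {q : M × M | ∃ b : T, (q.1, (b : N)) ∈ R ∧ q.2 = f b})
      ?_ hS ?_ ?_
    · refine (hR.comp hR'.swap).subset ?_
      rintro q ⟨b, hb, hq⟩
      refine ⟨b, hb, ?_⟩
      change (q.2, (b : N)) ∈ R'
      rw [hq]
      exact hf b
    · rw [h1]
      ext x
      constructor
      · rintro ⟨p, hp, rfl⟩
        have hpT : p.2 ∈ T := by
          rw [← SetLike.mem_coe, h2]
          exact ⟨p, hp, rfl⟩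
        exact ⟨(p.1, f ⟨p.2, hpT⟩), ⟨⟨p.2, hpT⟩, hp, rfl⟩, rfl⟩
      · rintro ⟨q, ⟨b, hb, -⟩, rfl⟩
        exact ⟨_, hb, rfl⟩
    · ext x
      constructor
      · rintro ⟨b, rfl⟩
        have hb : (b : N) ∈ (T : Set N) := b.2
        rw [h2] at hb
        obtain ⟨p, hp, hpb⟩ := hb
        refine ⟨(p.1, f b), ⟨b, ?_, rfl⟩, rfl⟩
        rw [← hpb]
        exact hp
      · rintro ⟨q, ⟨b, -, hb⟩, rfl⟩
        exact ⟨b, hb.symm⟩
  have h4 : K.Emb f := h3
  refine ⟨hT, ?_⟩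
  exact AEC.Emb.of_comp (g := S'.subtype.comp e.toEmbedding)
    (AEC.Emb.comp (AEC.emb_subtype.2 hS') hemb') h4

/-- Classes are closed under `L_{∞,l⁺}`-equivalence. -/
theorem mem_of_good (hK : K.IsLS l) (hM : K.mem M) (h : Good L l (∅ : Set (M × N))) :
    K.mem N := by
  let P : L.Substructure N → Prop := fun T => ∃ (R : Set (M × N)) (S : L.Substructure M),
    Good L l R ∧ K.le S ∧ (S : Set M) = Prod.fst '' R ∧ (T : Set N) = Prod.snd '' R
  have hcof : ∀ B : Set N, #B ≤ l → ∃ T : {T // P T}, B ⊆ T.1 := by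
    intro B hB
    obtain ⟨R', S, T, -, h1, h2, h3, h4, h5⟩ := exists_pos hK hM h B hB
    exact ⟨⟨T, R', S, h1, h2, h3, h4⟩, h5⟩
  have hcard : ∀ T : {T // P T}, #(T.1 : Set N) ≤ l := by
    rintro ⟨T, R, S, h1, h2, h3, h4⟩
    change #(T : Set N) ≤ l
    rw [h4]
    exact mk_image_le.trans h1.2.1
  have hne : Nonempty {T // P T} := by
    obtain ⟨T, -⟩ := hcof ∅ (by simp)
    exact ⟨T⟩
  have hdir : IsDirectedOrder {T // P T} := ⟨fun T T' => by
    obtain ⟨T'', hT''⟩ := hcof ((T.1 : Set N) ∪ (T'.1 : Set N))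
      ((mk_union_le _ _).trans (add_le_of_le hK.1 (hcard T) (hcard T')))
    exact ⟨T'', fun x hx => hT'' (Or.inl hx), fun x hx => hT'' (Or.inr hx)⟩⟩
  refine (AEC.mem_of_directed_union (K := K) (ι := {T // P T}) (fun T => T.1)
    (fun T T' h => h) ?_ ?_).1
  · rintro ⟨T, R, S, h1, h2, h3, h4⟩ ⟨T', R', S', h1', h2', h3', h4'⟩ hTT'
    exact sle_of_pos hK hM h1 h1' h2 h2' h3 h3' h4 h4' hTT'
  · intro x
    obtain ⟨T, hT⟩ := hcof {x} (by rw [mk_singleton]; exact one_le_aleph0.trans hK.1)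
    exact ⟨T, hT rfl⟩

/-- Elementary substructures for `L_{∞,l⁺}` are strong. -/
theorem le_of_elem (hK : K.IsLS l) (hN : K.mem N) {S : L.Substructure N}
    (h : ∀ A : Set S, #A ≤ l → Good L l (gr S.subtype A)) : K.le S := by
  have hS : K.mem S := by
    refine mem_of_good hK hN (Good.subset (Good.swap (h ∅ (by simp))) (empty_subset _))
  obtain ⟨H, hH1, hH2, hH3, hH4⟩ := AEC.exists_hull' hK hS
  have h1 : ∀ a : Finset S, K.le ((H a).map S.subtype.toHom) := by
    intro a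
    refine le_of_good hK hS hN (h (H a : Set S) (hH4 a)) (hH1 a) ?_ ?_
    · ext x
      constructor
      · intro hx
        exact ⟨(x, x.1), mem_gr.2 ⟨hx, rfl⟩, rfl⟩
      · rintro ⟨p, hp, rfl⟩
        exact (mem_gr.1 hp).1
    · ext x
      constructor
      · rintro ⟨y, hy, rfl⟩
        exact ⟨(y, y.1), mem_gr.2 ⟨hy, rfl⟩, rfl⟩
      · rintro ⟨p, hp, rfl⟩
        exact ⟨p.1, (mem_gr.1 hp).1, (mem_gr.1 hp).2.symm⟩
  have h2 : Monotone fun a => (H a).map S.subtype.toHom := fun a b hab =>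
    Language.Substructure.monotone_map (hH2 hab)
  have h3 := AEC.le_iSup_finset _ h2 h1
  convert h3 using 1
  apply le_antisymm
  · intro x hx
    refine (le_iSup (fun a => (H a).map S.subtype.toHom) {⟨x, hx⟩}) ?_
    exact ⟨⟨x, hx⟩, hH3 {⟨x, hx⟩} (by simp), rfl⟩
  · refine iSup_le fun a => ?_
    rintro _ ⟨y, -, rfl⟩
    exact y.2

end Vale.Agent.P307.H304
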