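import Vale.Agent.P307.H304.Unif

/-!
Morley extraction with large homogeneous sets.
-/

universe u

open FirstOrder Cardinal Set

namespace Vale.Agent.P307.H304

/-- An increasing sequence of cardinals above `χ` closed under the arrow function. -/
noncomputable def gSeq (χ ρ c : Cardinal.{u}) : SuccTy ρ → Cardinal.{u} :=
  WellFounded.fix (r := (· < ·)) wellFounded_lt
    (fun i d => max (max (max χ ℵ₀) (⨆ j : Set.Iio i, d j.1 j.2))
      (⨆ p : Set.Iio i × ℕ, arrowFn p.2 c (d p.1.1 p.1.2)))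

theorem gSeq_eq (χ ρ c : Cardinal.{u}) (i : SuccTy ρ) : gSeq χ ρ c i =
    max (max (max χ ℵ₀) (⨆ j : Set.Iio i, gSeq χ ρ c j.1))
      (⨆ p : Set.Iio i × ℕ, arrowFn p.2 c (gSeq χ ρ c p.1.1)) := by
  unfold gSeq
  rw [WellFounded.fix_eq]

theorem le_gSeq (χ ρ c : Cardinal.{u}) (i : SuccTy ρ) : χ ≤ gSeq χ ρ c i := by
  rw [gSeq_eq]
  exact ((le_max_left _ _).trans (le_max_left _ _)).trans (le_max_left _ _)

theorem aleph0_le_gSeq (χ ρ c : Cardinal.{u}) (i : SuccTy ρ) : ℵ₀ ≤ gSeq χ ρ c i := by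
  rw [gSeq_eq]
  exact ((le_max_right _ _).trans (le_max_left _ _)).trans (le_max_left _ _)

theorem gSeq_mono (χ ρ c : Cardinal.{u}) {i j : SuccTy ρ} (hij : j < i) :
    gSeq χ ρ c j ≤ gSeq χ ρ c i := by
  rw [gSeq_eq χ ρ c i]
  refine le_trans (le_trans ?_ (le_max_right _ _)) (le_max_left _ _)
  exact le_ciSup (f := fun j : Set.Iio i => gSeq χ ρ c j.1) (bddAbove_of_small) ⟨j, hij⟩

theorem arrowFn_le_gSeq (χ ρ c : Cardinal.{u}) {i j : SuccTy ρ} (hij : j < i) (n : ℕ) :
    arrowFn n c (gSeq χ ρ c j) ≤ gSeq χ ρ c i := by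
  rw [gSeq_eq χ ρ c i]
  refine le_trans ?_ (le_max_right _ _)
  exact le_ciSup (f := fun p : Set.Iio i × ℕ => arrowFn p.2 c (gSeq χ ρ c p.1.1))
    (bddAbove_of_small) (⟨j, hij⟩, n)

/-- The Hanf number for colour sets of size at most `c` and homogeneous sets of size `χ`. -/
noncomputable def hanfG (χ c : Cardinal.{u}) : Cardinal.{u} :=
  ⨆ i : SuccTy (max c ℵ₀), gSeq χ (max c ℵ₀) c i

section template

variable {χ c : Cardinal.{u}} {T : ℕ → Type u} {X : Type u} [LinearOrder X]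
  (f : ∀ n, (Fin n → X) → T n)

/-- The colours `p k`, `k < n`, are realized homogeneously on large sets. -/
def LargeG (χ c : Cardinal.{u}) (f : ∀ n, (Fin n → X) → T n) (n : ℕ) (p : ∀ n, T n) : Prop :=
  ∀ i : SuccTy (max c ℵ₀), ∃ H : Set X, gSeq χ (max c ℵ₀) c i ≤ #H ∧
    ∀ k < n, ∀ a : Fin k → X, StrictMono a → (∀ j, a j ∈ H) → f k a = p k

theorem LargeG.step [WellFoundedLT X] (hT : ∀ n, #(T n) ≤ c) {n : ℕ} {p : ∀ n, T n}
    (h : LargeG χ c f n p) : ∃ p', (∀ k < n, p' k = p k) ∧ LargeG χ c f (n + 1) p' := by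
  classical
  -- homogeneous sets for all indices
  have hstep : ∀ i : SuccTy (max c ℵ₀), ∃ H : Set X, gSeq χ (max c ℵ₀) c i ≤ #H ∧
      (∀ k < n, ∀ a : Fin k → X, StrictMono a → (∀ j, a j ∈ H) → f k a = p k) ∧
      ∃ t : T n, ∀ a : Fin n → X, StrictMono a → (∀ j, a j ∈ H) → f n a = t := by
    intro i
    obtain ⟨i', hi'⟩ := exists_gt_of_small (le_max_right c ℵ₀) {i}
      (by rw [mk_singleton]; exact one_le_aleph0.trans (le_max_right _ _))
    obtain ⟨H', hH', hp⟩ := h i'
    have h1 := (arrowFn_le_gSeq χ (max c ℵ₀) c (hi' i rfl) n).trans hH'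
    obtain ⟨H, hH, hhom⟩ := arrowFn_spec n c _ (T n) (hT n) H' h1 (fun a => f n (fun j => a j))
    have h3 : ∀ x : ↥((Subtype.val : H' → X) '' H), x.1 ∈ H' := by
      rintro ⟨_, x, hx, rfl⟩
      exact x.2
    refine ⟨Subtype.val '' H, ?_, ?_, ?_⟩
    · rw [mk_image_eq Subtype.val_injective]
      exact hH
    · intro k hk a ha haH
      exact hp k hk a ha (fun j => by obtain ⟨x, hx, hxa⟩ := haH j; rw [← hxa]; exact x.2)
    · by_cases hne : ∃ a : Fin n → H', StrictMono a ∧ ∀ j, a j ∈ H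
      · obtain ⟨a₀, ha₀, ha₀H⟩ := hne
        refine ⟨f n (fun j => a₀ j), fun a ha haH => ?_⟩
        choose b hb hba using haH
        have hb' : StrictMono b := by
          intro i j hij
          have := ha hij
          rw [← hba i, ← hba j] at this
          exact this
        have := hhom b a₀ hb' ha₀ hb ha₀H
        rw [← this]
        congr 1
        funext j
        exact (hba j).symm
      · have hT' : Nonempty (T n) := by
          have hne : Nonempty H' := by
            have : (0 : Cardinal.{u}) < #H' :=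
              aleph0_pos.trans_le ((aleph0_le_gSeq _ _ _ _).trans hH')
            exact mk_ne_zero_iff.1 this.ne'
          exact ⟨f n (fun _ => (Classical.arbitrary H' : X))⟩
        refine ⟨Classical.arbitrary _, fun a ha haH => ?_⟩
        exfalso
        choose b hb hba using haH
        refine hne ⟨b, ?_, hb⟩
        intro i j hij
        have := ha hij
        rw [← hba i, ← hba j] at this
        exact this
  choose H hH1 hH2 t ht using hstep
  obtain ⟨t₀, ht₀⟩ := exists_unbounded_color (le_max_right c ℵ₀) ((hT n).trans (le_max_left _ _)) t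
  refine ⟨Function.update p n t₀, fun k hk => Function.update_of_ne hk.ne _ _, fun i => ?_⟩
  obtain ⟨i', hi', hti'⟩ := ht₀ i
  refine ⟨H i', ?_, ?_⟩
  · exact (gSeq_mono _ _ _ hi').trans (hH1 i')
  · intro k hk a ha haH
    rcases Nat.lt_succ_iff_lt_or_eq.1 hk with hk' | rfl
    · rw [Function.update_of_ne hk'.ne]
      exact hH2 i' k hk' a ha haH
    · rw [Function.update_self, ht i' a ha haH, hti']

/-- Extraction of a coherent sequence of homogeneous tuples with large homogeneous sets. -/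
theorem exists_coherentG [WellFoundedLT X] (hT : ∀ n, #(T n) ≤ c) (hX : hanfG χ c ≤ #X) :
    ∃ a : ∀ n, Fin n → X, (∀ n, StrictMono (a n)) ∧
      (∀ (k n : ℕ) (g : Fin k → Fin n), StrictMono g → f k (a n ∘ g) = f k (a k)) ∧
      ∀ n : ℕ, ∃ H : Set X, χ ≤ #H ∧ ∀ k ≤ n, ∀ b : Fin k → X, StrictMono b → (∀ j, b j ∈ H) →
        f k b = f k (a k) := by
  classical
  have hXinf : ℵ₀ ≤ #X := by
    obtain ⟨x, -⟩ := exists_gt_of_small (le_max_right c ℵ₀) (∅ : Set (SuccTy (max c ℵ₀)))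
      (by simp only [mk_eq_zero, le_sup_iff, zero_le, or_self])
    refine (aleph0_le_gSeq χ (max c ℵ₀) c x).trans (le_trans ?_ hX)
    exact le_ciSup (f := fun i => gSeq χ (max c ℵ₀) c i) bddAbove_of_small x
  have hne : Nonempty X := mk_ne_zero_iff.1 (aleph0_pos.trans_le hXinf).ne'
  have hbase : LargeG χ c f 0 (fun n => f n (fun _ => Classical.arbitrary X)) := by
    intro i
    refine ⟨Set.univ, ?_, fun k hk => absurd hk (Nat.not_lt_zero k)⟩
    rw [mk_univ]
    exact (le_ciSup (f := fun i => gSeq χ (max c ℵ₀) c i) bddAbove_of_small i).trans hX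
  have hstep : ∀ (n : ℕ) (p : {p : ∀ n, T n // LargeG χ c f n p}),
      ∃ p' : {p : ∀ n, T n // LargeG χ c f (n + 1) p}, ∀ k < n, p'.1 k = p.1 k := by
    rintro n ⟨p, hp⟩
    obtain ⟨p', h1, h2⟩ := LargeG.step f hT hp
    exact ⟨⟨p', h2⟩, h1⟩
  choose nxt hnxt using hstep
  let s : ∀ n, {p : ∀ n, T n // LargeG χ c f n p} := fun n => Nat.rec ⟨_, hbase⟩ nxt n
  have hs : ∀ k n, k < n → (s n).1 k = (s (k + 1)).1 k := by
    intro k n hkn
    induction n with
    | zero => exact absurd hkn (Nat.not_lt_zero k)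
    | succ n ih =>
      rcases Nat.lt_succ_iff_lt_or_eq.1 hkn with h | rfl
      · rw [← ih h]
        exact hnxt n (s n) k h
      · rfl
  have hreal : ∀ n, ∃ a : Fin n → X, StrictMono a ∧
      ∀ (k : ℕ) (g : Fin k → Fin n), StrictMono g → f k (a ∘ g) = (s (k + 1)).1 k := by
    intro n
    obtain ⟨x, -⟩ := exists_gt_of_small (le_max_right c ℵ₀) (∅ : Set (SuccTy (max c ℵ₀)))
      (by simp only [mk_eq_zero, le_sup_iff, zero_le, or_self])
    obtain ⟨H, hH, hp⟩ := (s (n + 1)).2 x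
    have hHinf : ℵ₀ ≤ #H := (aleph0_le_gSeq _ _ _ _).trans hH
    have : Infinite H := infinite_iff.2 hHinf
    obtain ⟨F, hF⟩ := Infinite.exists_subset_card_eq H n
    refine ⟨fun i => ((F.orderEmbOfFin hF) i : H), ?_, ?_⟩
    · intro i j hij
      exact (F.orderEmbOfFin hF).strictMono hij
    · intro k g hg
      have hk : k ≤ n := by
        simpa only [Fintype.card_fin] using Fintype.card_le_of_injective g hg.injective
      rw [hp k (Nat.lt_succ_of_le hk)]
      · exact hs k (n + 1) (Nat.lt_succ_of_le hk)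
      · intro i j hij
        exact (F.orderEmbOfFin hF).strictMono (hg hij)
      · intro j
        exact ((F.orderEmbOfFin hF) (g j)).2
  choose a ha hag using hreal
  have haa : ∀ k, f k (a k) = (s (k + 1)).1 k := by
    intro k
    have := hag k k id strictMono_id
    simpa only [CompTriple.comp_eq] using this
  refine ⟨a, ha, fun k n g hg => ?_, fun n => ?_⟩
  · rw [hag n k g hg, haa k]
  · obtain ⟨x, -⟩ := exists_gt_of_small (le_max_right c ℵ₀) (∅ : Set (SuccTy (max c ℵ₀)))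
      (by simp only [mk_eq_zero, le_sup_iff, zero_le, or_self])
    obtain ⟨H, hH, hp⟩ := (s (n + 1)).2 x
    refine ⟨H, (le_gSeq _ _ _ _).trans hH, fun k hk b hb hbH => ?_⟩
    rw [hp k (Nat.lt_succ_of_le hk) b hb hbH, haa k]
    exact hs k (n + 1) (Nat.lt_succ_of_le hk)

end template

section

variable {L : Language.{u, u}} {M : Type u} [L.Structure M]

/-- Morley's extraction with large homogeneous sets. -/
theorem exists_templateG {ℓ χ : Cardinal.{u}} (hℓ : ℵ₀ ≤ ℓ) (hL : L.card ≤ ℓ) {X : Type u}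
    [LinearOrder X] [WellFoundedLT X] (x : X → M) (hX : hanfG χ (2 ^ ℓ) ≤ #X) :
    ∃ a : ∀ n, Fin n → X, (∀ n, StrictMono (a n)) ∧
      (∀ (k n : ℕ) (g : Fin k → Fin n), StrictMono g →
        AtEq L (fun i => x (a n (g i))) (fun i => x (a k i))) ∧
      ∀ n : ℕ, ∃ H : Set X, χ ≤ #H ∧ ∀ k ≤ n, ∀ b : Fin k → X, StrictMono b → (∀ j, b j ∈ H) →
        AtEq L (fun i => x (b i)) (fun i => x (a k i)) := by
  obtain ⟨a, ha, h, h'⟩ := exists_coherentG (χ := χ) (c := 2 ^ ℓ)
    (T := fun n => Set ((L.Term (Fin n) × L.Term (Fin n)) ⊕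
      (Σ m : ℕ, L.Relations m × (Fin m → L.Term (Fin n)))))
    (fun n b => atTp L (fun i => x (b i))) (fun n => mk_atTp_fin_le hℓ hL n) hX
  refine ⟨a, ha, fun k n g hg => atTp_eq_iff.1 (h k n g hg), fun n => ?_⟩
  obtain ⟨H, hH, hb⟩ := h' n
  exact ⟨H, hH, fun k hk b hb1 hb2 => atTp_eq_iff.1 (hb k hk b hb1 hb2)⟩

end

end Vale.Agent.P307.H304
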