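import Vale.Agent.P307.Bdl.B1

/-!
The levels of the back-and-forth game.
-/

universe u

open FirstOrder Cardinal Set

namespace Vale.Agent.P307.H304

variable {L : Language.{u, u}} {M N P : Type u} [L.Structure M] [L.Structure N] [L.Structure P]

/-- Every element of `A` is related to some element. -/
def CovL (R : Set (M × N)) (A : Set M) : Prop := ∀ a ∈ A, ∃ b, (a, b) ∈ R

/-- Some element is related to every element of `B`. -/
def CovR (R : Set (M × N)) (B : Set N) : Prop := ∀ b ∈ B, ∃ a, (a, b) ∈ R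

/-- The positions of level at least `γ`. -/
def Lev (L : Language.{u, u}) (M N : Type u) [L.Structure M] [L.Structure N] (ν : Cardinal.{u})
    (γ : Ordinal.{u}) : Set (Set (M × N)) :=
  {R | IsPI L R ∧ #R ≤ ν ∧ ∀ β, (h : β < γ) →
    (∀ A : Set M, #A ≤ ν → ∃ R' ∈ Lev L M N ν β, R ⊆ R' ∧ CovL R' A) ∧
    (∀ B : Set N, #B ≤ ν → ∃ R' ∈ Lev L M N ν β, R ⊆ R' ∧ CovR R' B)}
termination_by γ
decreasing_by all_goals exact h

theorem mem_lev_iff {ν : Cardinal.{u}} {γ : Ordinal.{u}} {R : Set (M × N)} :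
    R ∈ Lev L M N ν γ ↔ IsPI L R ∧ #R ≤ ν ∧ ∀ β, β < γ →
      (∀ A : Set M, #A ≤ ν → ∃ R' ∈ Lev L M N ν β, R ⊆ R' ∧ CovL R' A) ∧
      (∀ B : Set N, #B ≤ ν → ∃ R' ∈ Lev L M N ν β, R ⊆ R' ∧ CovR R' B) := by
  conv_lhs => rw [Lev]
  rfl

variable {ν : Cardinal.{u}} {γ γ' : Ordinal.{u}}

theorem Lev.anti {R : Set (M × N)} (h : R ∈ Lev L M N ν γ) (hγ : γ' ≤ γ) :
    R ∈ Lev L M N ν γ' := by
  rw [mem_lev_iff] at h ⊢
  exact ⟨h.1, h.2.1, fun β hβ => h.2.2 β (hβ.trans_le hγ)⟩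

theorem Lev.isPI {R : Set (M × N)} (h : R ∈ Lev L M N ν γ) : IsPI L R := (mem_lev_iff.1 h).1

theorem Lev.card {R : Set (M × N)} (h : R ∈ Lev L M N ν γ) : #R ≤ ν := (mem_lev_iff.1 h).2.1

theorem Lev.subset {R R' : Set (M × N)} (h : R' ∈ Lev L M N ν γ) (hR : R ⊆ R') :
    R ∈ Lev L M N ν γ := by
  rw [mem_lev_iff] at h ⊢
  refine ⟨h.1.mono hR, (mk_le_mk_of_subset hR).trans h.2.1, fun β hβ => ⟨fun A hA => ?_,
    fun B hB => ?_⟩⟩
  · obtain ⟨R'', h1, h2, h3⟩ := (h.2.2 β hβ).1 A hA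
    exact ⟨R'', h1, hR.trans h2, h3⟩
  · obtain ⟨R'', h1, h2, h3⟩ := (h.2.2 β hβ).2 B hB
    exact ⟨R'', h1, hR.trans h2, h3⟩

theorem mk_swap (R : Set (M × N)) : #(Prod.swap ⁻¹' R : Set (N × M)) = #R :=
  mk_congr ((Equiv.prodComm N M).subtypeEquiv (fun _ => Iff.rfl))

theorem Lev.swap {R : Set (M × N)} (h : R ∈ Lev L M N ν γ) :
    (Prod.swap ⁻¹' R : Set (N × M)) ∈ Lev L N M ν γ := by
  induction γ using WellFoundedLT.induction generalizing R with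
  | ind γ ih =>
  rw [mem_lev_iff] at h ⊢
  refine ⟨h.1.swap, (mk_swap R).trans_le h.2.1, fun β hβ => ⟨fun A hA => ?_, fun B hB => ?_⟩⟩
  · obtain ⟨R', h1, h2, h3⟩ := (h.2.2 β hβ).2 A hA
    exact ⟨_, ih β hβ h1, preimage_mono h2, h3⟩
  · obtain ⟨R', h1, h2, h3⟩ := (h.2.2 β hβ).1 B hB
    exact ⟨_, ih β hβ h1, preimage_mono h2, h3⟩

theorem Lev.comp {R : Set (M × N)} {R' : Set (N × P)} (h : R ∈ Lev L M N ν γ)
    (h' : R' ∈ Lev L N P ν γ) : relComp R R' ∈ Lev L M P ν γ := by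
  induction γ using WellFoundedLT.induction generalizing R R' with
  | ind γ ih =>
  have h0 := h
  have h0' := h'
  rw [mem_lev_iff] at h h' ⊢
  refine ⟨h.1.comp h'.1, (h'.1.mk_comp_le).trans h.2.1, fun β hβ => ⟨fun A hA => ?_,
    fun B hB => ?_⟩⟩
  · obtain ⟨R₁, h1, h2, h3⟩ := (h.2.2 β hβ).1 A hA
    obtain ⟨R₂, h4, h5, h6⟩ := (h'.2.2 β hβ).1 (Prod.snd '' R₁) (mk_image_le.trans (Lev.card h1))
    refine ⟨relComp R₁ R₂, ih β hβ h1 h4, ?_, ?_⟩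
    · rintro p ⟨y, hy, hy'⟩
      exact ⟨y, h2 hy, h5 hy'⟩
    · intro a ha
      obtain ⟨b, hb⟩ := h3 a ha
      obtain ⟨c, hc⟩ := h6 b ⟨_, hb, rfl⟩
      exact ⟨c, b, hb, hc⟩
  · obtain ⟨R₂, h1, h2, h3⟩ := (h'.2.2 β hβ).2 B hB
    obtain ⟨R₁, h4, h5, h6⟩ := (h.2.2 β hβ).2 (Prod.fst '' R₂) (mk_image_le.trans (Lev.card h1))
    refine ⟨relComp R₁ R₂, ih β hβ h4 h1, ?_, ?_⟩
    · rintro p ⟨y, hy, hy'⟩
      exact ⟨y, h5 hy, h2 hy'⟩
    · intro a ha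
      obtain ⟨b, hb⟩ := h3 a ha
      obtain ⟨c, hc⟩ := h6 b ⟨_, hb, rfl⟩
      exact ⟨c, b, hc, hb⟩

theorem lev_of_good {R : Set (M × N)} (h : Good L ν R) (γ : Ordinal.{u}) :
    R ∈ Lev L M N ν γ := by
  induction γ using WellFoundedLT.induction generalizing R with
  | ind γ ih =>
  rw [mem_lev_iff]
  refine ⟨h.1, h.2.1, fun β hβ => ⟨fun A hA => ?_, fun B hB => ?_⟩⟩
  · obtain ⟨R', h1, h2, h3⟩ := h.exists_left A hA
    exact ⟨R', ih β hβ h2, h1, h3⟩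
  · obtain ⟨R', h1, h2, h3⟩ := h.exists_right B hB
    exact ⟨R', ih β hβ h2, h1, h3⟩

/-- Choice of one position which works for all levels. -/
theorem exists_all {X : Type u} (p : X → Prop) (q : Ordinal.{u} → X → Prop)
    (hq : ∀ γ γ' x, γ' ≤ γ → q γ x → q γ' x) (h : ∀ γ, ∃ x, p x ∧ q γ x) :
    ∃ x, p x ∧ ∀ γ, q γ x := by
  by_contra hcon
  push Not at hcon
  have h1 : ∀ x, ∃ γ, p x → ¬ q γ x := by
    intro x
    by_cases hx : p x
    · obtain ⟨γ, hγ⟩ := hcon x hx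
      exact ⟨γ, fun _ => hγ⟩
    · exact ⟨0, fun h => absurd h hx⟩
  choose g hg using h1
  obtain ⟨x, hx, hx'⟩ := h (⨆ x, g x)
  exact hg x hx (hq _ _ x (Ordinal.le_iSup g x) hx')

theorem good_of_lev {R : Set (M × N)} (h : ∀ γ, R ∈ Lev L M N ν γ) : Good L ν R := by
  refine good_of_system {R | ∀ γ, R ∈ Lev L M N ν γ} (fun R hR => ⟨Lev.isPI (hR 0), Lev.card (hR 0)⟩)
    ?_ ?_ h
  · intro R hR A hA
    obtain ⟨R', h1, h2⟩ := exists_all (fun R' : Set (M × N) => R ⊆ R' ∧ CovL R' A)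
      (fun γ R' => R' ∈ Lev L M N ν γ) (fun γ γ' R' hγ h => Lev.anti h hγ) (fun γ => by
        obtain ⟨R', h1, h2, h3⟩ := ((mem_lev_iff.1 (hR (Order.succ γ))).2.2 γ
          (Order.lt_succ γ)).1 A hA
        exact ⟨R', ⟨h2, h3⟩, h1⟩)
    exact ⟨R', h2, h1.1, h1.2⟩
  · intro R hR B hB
    obtain ⟨R', h1, h2⟩ := exists_all (fun R' : Set (M × N) => R ⊆ R' ∧ CovR R' B)
      (fun γ R' => R' ∈ Lev L M N ν γ) (fun γ γ' R' hγ h => Lev.anti h hγ) (fun γ => by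
        obtain ⟨R', h1, h2, h3⟩ := ((mem_lev_iff.1 (hR (Order.succ γ))).2.2 γ
          (Order.lt_succ γ)).2 B hB
        exact ⟨R', ⟨h2, h3⟩, h1⟩)
    exact ⟨R', h2, h1.1, h1.2⟩

/-- The restricted graph of a map. -/
def gr (f : M → N) (A : Set M) : Set (M × N) := (fun a => (a, f a)) '' A

theorem mk_gr_le (f : M → N) (A : Set M) : #(gr f A) ≤ #A := mk_image_le

theorem mem_gr {f : M → N} {A : Set M} {p : M × N} : p ∈ gr f A ↔ p.1 ∈ A ∧ p.2 = f p.1 := by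
  constructor
  · rintro ⟨a, ha, rfl⟩
    exact ⟨ha, rfl⟩
  · rintro ⟨h1, h2⟩
    exact ⟨p.1, h1, Prod.ext rfl h2.symm⟩

theorem isPI_gr (f : M ↪[L] N) (A : Set M) : IsPI L (gr f A) where
  eq_iff := by
    intro p hp q hq
    rw [(mem_gr.1 hp).2, (mem_gr.1 hq).2]
    exact f.injective.eq_iff.symm
  fun_iff := by
    intro n g x hx q hq
    have h1 : (fun i => (x i).2) = f ∘ fun i => (x i).1 := by
      funext i
      exact (mem_gr.1 (hx i)).2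
    rw [(mem_gr.1 hq).2, h1, ← f.map_fun]
    exact f.injective.eq_iff.symm
  rel_iff := by
    intro n r x hx
    have h1 : (fun i => (x i).2) = f ∘ fun i => (x i).1 := by
      funext i
      exact (mem_gr.1 (hx i)).2
    rw [h1]
    exact (f.map_rel r _).symm

/-- Restrictions of isomorphisms are good. -/
theorem good_gr_equiv (hν : ℵ₀ ≤ ν) (e : M ≃[L] N) {A : Set M} (hA : #A ≤ ν) :
    Good L ν (gr e A) := by
  refine good_of_system {R | ∃ A : Set M, #A ≤ ν ∧ R = gr e A} ?_ ?_ ?_ ⟨A, hA, rfl⟩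
  · rintro _ ⟨A, hA, rfl⟩
    exact ⟨isPI_gr e.toEmbedding A, (mk_gr_le _ _).trans hA⟩
  · rintro _ ⟨A, hA, rfl⟩ A' hA'
    refine ⟨_, ⟨A ∪ A', (mk_union_le _ _).trans (add_le_of_le hν hA hA'), rfl⟩, ?_, ?_⟩
    · exact image_mono subset_union_left
    · intro a ha
      exact ⟨e a, a, Or.inr ha, rfl⟩
  · rintro _ ⟨A, hA, rfl⟩ B hB
    refine ⟨_, ⟨A ∪ e.symm '' B, (mk_union_le _ _).trans (add_le_of_le hν hA
      (mk_image_le.trans hB)), rfl⟩, ?_, ?_⟩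
    · exact image_mono subset_union_left
    · intro b hb
      exact ⟨e.symm b, e.symm b, Or.inr ⟨b, hb, rfl⟩, Prod.ext rfl (e.apply_symm_apply b)⟩

/-- Change of the left structure. -/
theorem Lev.map_left {R : Set (M × P)} (h : R ∈ Lev L M P ν γ) {f : M → N}
    (hf : gr f (Prod.fst '' R) ∈ Lev L M N ν γ) :
    (Prod.map f id '' R : Set (N × P)) ∈ Lev L N P ν γ := by
  refine Lev.subset (Lev.comp (Lev.swap hf) h) ?_
  rintro _ ⟨p, hp, rfl⟩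
  exact ⟨p.1, mem_gr.2 ⟨⟨p, hp, rfl⟩, rfl⟩, hp⟩

/-- Change of the right structure. -/
theorem Lev.map_right {R : Set (M × N)} (h : R ∈ Lev L M N ν γ) {f : N → P}
    (hf : gr f (Prod.snd '' R) ∈ Lev L N P ν γ) :
    (Prod.map id f '' R : Set (M × P)) ∈ Lev L M P ν γ := by
  refine Lev.subset (Lev.comp h hf) ?_
  rintro _ ⟨p, hp, rfl⟩
  exact ⟨p.2, hp, mem_gr.2 ⟨⟨p, hp, rfl⟩, rfl⟩⟩

end Vale.Agent.P307.H304
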