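import Vale.Agent.P307.H304.Close

/-!
Models of size `κ` on subsets of a fixed set.
-/

universe u

open FirstOrder Cardinal Set

namespace Vale.Agent.P307.H304

variable {L : Language.{u, u}}

/-- Models of size `κ` on subsets of `Ω`. -/
structure Pt (K : AEC L) (Ω : Type u) (κ : Cardinal.{u}) where
  s : Set Ω
  str : L.Structure s
  mem : K.mem s
  card : #s = κ

variable {K : AEC L} {Ω : Type u} {κ : Cardinal.{u}}

instance (x : Pt K Ω κ) : L.Structure x.s := x.str

/-- `f` is the inclusion and a strong embedding. -/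
def IsIncl {x y : Pt K Ω κ} (f : x.s ↪[L] y.s) : Prop := K.Emb f ∧ ∀ a, (f a).1 = a.1

instance : Preorder (Pt K Ω κ) where
  le x y := ∃ f : x.s ↪[L] y.s, IsIncl f
  le_refl x := ⟨Language.Embedding.refl L x.s, AEC.Emb.of_equiv (Language.Equiv.refl L x.s) x.mem,
    fun _ => rfl⟩
  le_trans x y z := by
    rintro ⟨f, hf⟩ ⟨g, hg⟩
    exact ⟨g.comp f, AEC.Emb.comp hg.1 hf.1, fun a => (hg.2 _).trans (hf.2 a)⟩

theorem pt_le_iff {x y : Pt K Ω κ} : x ≤ y ↔ ∃ f : x.s ↪[L] y.s, IsIncl f := Iff.rfl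

theorem subset_of_le {x y : Pt K Ω κ} (h : x ≤ y) : x.s ⊆ y.s := by
  obtain ⟨f, hf⟩ := h
  intro a ha
  have h : (f ⟨a, ha⟩).1 = a := hf.2 ⟨a, ha⟩
  have h2 := (f ⟨a, ha⟩).2
  rwa [h] at h2

section union

variable {ι : Type u} [LinearOrder ι] [Nonempty ι] (c : ι → Pt K Ω κ) (hc : Monotone c)

/-- The inclusions. -/
noncomputable def inc {i j : ι} (hij : i ≤ j) : (c i).s ↪[L] (c j).s :=
  (hc hij : ∃ f : (c i).s ↪[L] (c j).s, IsIncl f).choose

theorem inc_spec {i j : ι} (hij : i ≤ j) : IsIncl (inc c hc hij) :=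
  (hc hij : ∃ f : (c i).s ↪[L] (c j).s, IsIncl f).choose_spec

/-- The union. -/
abbrev Un : Set Ω := ⋃ i, (c i).s

include hc in
theorem exists_idx {n : ℕ} (v : Fin n → Un c) : ∃ i, ∀ k, (v k).1 ∈ (c i).s := by
  have h : ∀ k, ∃ i, (v k).1 ∈ (c i).s := fun k => mem_iUnion.1 (v k).2
  choose g hg using h
  obtain ⟨m, hm⟩ := Finset.exists_le (Finset.univ.image g)
  exact ⟨m, fun k => subset_of_le (hc (hm _ (Finset.mem_image_of_mem g (Finset.mem_univ k))))
    (hg k)⟩

/-- The stage containing a tuple. -/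
noncomputable def idx {n : ℕ} (v : Fin n → Un c) : ι := (exists_idx c hc v).choose

/-- The tuple at its stage. -/
noncomputable def lft {n : ℕ} (v : Fin n → Un c) (k : Fin n) : (c (idx c hc v)).s :=
  ⟨(v k).1, (exists_idx c hc v).choose_spec k⟩

/-- The structure on the union. -/
noncomputable def unStr : L.Structure (Un c) where
  funMap f v := ⟨(Language.Structure.funMap f (lft c hc v)).1, mem_iUnion.2 ⟨_, Subtype.mem _⟩⟩
  RelMap r v := Language.Structure.RelMap r (lft c hc v)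

theorem inc_eq {i j k : ι} (hik : i ≤ k) (hjk : j ≤ k) {a : (c i).s} {b : (c j).s}
    (h : a.1 = b.1) : inc c hc hik a = inc c hc hjk b :=
  Subtype.ext (((inc_spec c hc hik).2 a).trans (h.trans ((inc_spec c hc hjk).2 b).symm))

/-- The embeddings in the union. -/
noncomputable def unEmb (i : ι) : @Language.Embedding L (c i).s (Un c) _ (unStr c hc) :=
  letI := unStr c hc
  { toFun := fun a => ⟨a.1, mem_iUnion.2 ⟨i, a.2⟩⟩
    inj' := fun a b h => Subtype.ext (congrArg (fun z : Un c => z.1) h)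
    map_fun' := by
      intro n f w
      apply Subtype.ext
      have h1 : inc c hc (le_max_left i (idx c hc (fun k => (⟨(w k).1, mem_iUnion.2
          ⟨i, (w k).2⟩⟩ : Un c)))) (Language.Structure.funMap f w) =
          inc c hc (le_max_right i (idx c hc (fun k => (⟨(w k).1, mem_iUnion.2
          ⟨i, (w k).2⟩⟩ : Un c)))) (Language.Structure.funMap f (lft c hc _)) := by
        rw [Language.Embedding.map_fun, Language.Embedding.map_fun]
        congr 1
        funext k
        exact inc_eq c hc _ _ rfl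
      have h2 := congrArg Subtype.val h1
      rw [(inc_spec c hc _).2, (inc_spec c hc _).2] at h2
      exact h2
    map_rel' := by
      intro n r w
      have h1 : (fun k => inc c hc (le_max_left i (idx c hc (fun k => (⟨(w k).1, mem_iUnion.2
          ⟨i, (w k).2⟩⟩ : Un c)))) (w k)) =
          fun k => inc c hc (le_max_right i (idx c hc (fun k => (⟨(w k).1, mem_iUnion.2
          ⟨i, (w k).2⟩⟩ : Un c)))) (lft c hc (fun k => (⟨(w k).1, mem_iUnion.2
          ⟨i, (w k).2⟩⟩ : Un c)) k) := by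
        funext k
        exact inc_eq c hc _ _ rfl
      have h2 := (inc c hc (le_max_left i (idx c hc (fun k => (⟨(w k).1, mem_iUnion.2
          ⟨i, (w k).2⟩⟩ : Un c))))).map_rel r w
      have h3 := (inc c hc (le_max_right i (idx c hc (fun k => (⟨(w k).1, mem_iUnion.2
          ⟨i, (w k).2⟩⟩ : Un c))))).map_rel r (lft c hc (fun k => (⟨(w k).1, mem_iUnion.2
          ⟨i, (w k).2⟩⟩ : Un c)))
      refine Iff.trans h3.symm (Iff.trans ?_ h2)
      exact iff_of_eq (congrArg _ h1.symm) }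

theorem un_mem : @AEC.mem L K (Un c) (unStr c hc) ∧
    ∀ i, @AEC.Emb L K (c i).s (Un c) _ (unStr c hc) (unEmb c hc i) := by
  letI := unStr c hc
  have key := AEC.mem_of_directed_union (K := K) (ι := ι)
    (fun i => (unEmb c hc i).toHom.range) ?_ ?_ ?_
  · exact key
  · rintro i j hij _ ⟨a, rfl⟩
    exact ⟨inc c hc hij a, Subtype.ext ((inc_spec c hc hij).2 a)⟩
  · intro i j hij
    have h1 : (unEmb c hc i).toHom.range ≤ (unEmb c hc j).toHom.range := by
      rintro _ ⟨a, rfl⟩
      exact ⟨inc c hc hij a, Subtype.ext ((inc_spec c hc hij).2 a)⟩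
    refine ⟨h1, ?_⟩
    have hj : K.Emb (unEmb c hc j).equivRange.toEmbedding := AEC.Emb.of_equiv _ (c j).mem
    have hi : K.Emb (unEmb c hc i).equivRange.symm.toEmbedding :=
      AEC.Emb.of_equiv _ (K.mem_iso (unEmb c hc i).equivRange (c i).mem)
    have h2 := AEC.Emb.comp (AEC.Emb.comp hj (inc_spec c hc hij).1) hi
    convert h2 using 1
    apply Language.Embedding.ext
    intro x
    obtain ⟨a, rfl⟩ : ∃ a, (unEmb c hc i).equivRange a = x :=
      ⟨_, (unEmb c hc i).equivRange.apply_symm_apply x⟩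
    apply Subtype.ext
    apply Subtype.ext
    have h3 : (unEmb c hc i).equivRange.symm ((unEmb c hc i).equivRange a) = a :=
      (unEmb c hc i).equivRange.symm_apply_apply a
    change a.1 = (inc c hc hij ((unEmb c hc i).equivRange.symm ((unEmb c hc i).equivRange a))).1
    rw [h3]
    exact ((inc_spec c hc hij).2 a).symm
  · rintro ⟨x, hx⟩
    obtain ⟨i, hi⟩ := mem_iUnion.1 hx
    exact ⟨i, ⟨x, hi⟩, rfl⟩

end union

/-- Unions of chains. -/
theorem exists_union (hκ : ℵ₀ ≤ κ) {ι : Type u} [LinearOrder ι] [Nonempty ι] (hι : #ι ≤ κ)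
    (c : ι → Pt K Ω κ) (hc : Monotone c) :
    ∃ z : Pt K Ω κ, z.s = ⋃ i, (c i).s ∧ ∀ i, c i ≤ z := by
  letI := unStr c hc
  have hcard : #(Un c) = κ := by
    apply le_antisymm
    · exact mk_iUnion_le_of_le hκ hι _ fun i => (c i).card.le
    · exact (c (Classical.arbitrary ι)).card.symm.trans_le
        (mk_le_mk_of_subset (subset_iUnion (fun i => (c i).s) _))
  refine ⟨⟨Un c, unStr c hc, (un_mem c hc).1, hcard⟩, rfl, fun i => ?_⟩
  exact ⟨unEmb c hc i, (un_mem c hc).2 i, fun _ => rfl⟩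

/-- Realization of an abstract extension. -/
theorem exists_room (hκ : ℵ₀ ≤ κ) (hΩ : κ < #Ω) (x : Pt K Ω κ) {N : Type u} [L.Structure N]
    (hN : #N = κ) (g : x.s ↪[L] N) (hg : K.Emb g) :
    ∃ (z : Pt K Ω κ) (h : N ≃[L] z.s), x ≤ z ∧ ∀ a : x.s, (h (g a)).1 = a.1 := by
  classical
  have hinf : Infinite Ω := infinite_iff.2 (hκ.trans hΩ.le)
  have h1 : #((range g)ᶜ : Set N) ≤ #((x.s)ᶜ : Set Ω) := by
    rw [mk_compl_of_infinite x.s (x.card.trans_lt hΩ)]
    exact ((mk_set_le _).trans hN.le).trans hΩ.le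
  obtain ⟨j⟩ := (Cardinal.le_def _ _).1 h1
  let h₀ : N → Ω := fun n => if hn : n ∈ range g then (hn.choose).1 else (j ⟨n, hn⟩).1
  have h2 : ∀ a, h₀ (g a) = a.1 := by
    intro a
    have hn : g a ∈ range g := ⟨a, rfl⟩
    have h3 : h₀ (g a) = (hn.choose).1 := dif_pos hn
    rw [h3]
    exact congrArg Subtype.val (g.injective hn.choose_spec)
  have h3 : ∀ n, n ∉ range g → h₀ n ∉ x.s := by
    intro n hn
    have h4 : h₀ n = (j ⟨n, hn⟩).1 := dif_neg hn
    rw [h4]
    exact (j ⟨n, hn⟩).2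
  have hinj : Function.Injective h₀ := by
    intro n m hnm
    by_cases hn : n ∈ range g
    · by_cases hm : m ∈ range g
      · obtain ⟨a, rfl⟩ := hn
        obtain ⟨b, rfl⟩ := hm
        rw [h2, h2] at hnm
        rw [Subtype.ext hnm]
      · obtain ⟨a, rfl⟩ := hn
        have := h3 m hm
        rw [← hnm, h2] at this
        exact absurd a.2 this
    · by_cases hm : m ∈ range g
      · obtain ⟨a, rfl⟩ := hm
        have := h3 n hn
        rw [hnm, h2] at this
        exact absurd a.2 this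
      · have h4 : h₀ n = (j ⟨n, hn⟩).1 := dif_neg hn
        have h5 : h₀ m = (j ⟨m, hm⟩).1 := dif_neg hm
        rw [h4, h5] at hnm
        exact congrArg Subtype.val (j.injective (Subtype.ext hnm))
  let e : N ≃ range h₀ := Equiv.ofInjective h₀ hinj
  letI st : L.Structure (range h₀) := e.inducedStructure
  let e' : N ≃[L] range h₀ := e.inducedStructureEquiv
  refine ⟨⟨range h₀, st, K.mem_iso e' hg.mem_right, ?_⟩, e', ?_, fun a => h2 a⟩
  · rw [← hN]
    exact (mk_congr e).symm
  · exact ⟨e'.toEmbedding.comp g, AEC.Emb.comp (AEC.Emb.of_equiv e' hg.mem_right) hg,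
      fun a => h2 a⟩

/-- Realization of a model. -/
theorem exists_pt (hΩ : κ < #Ω) {N : Type u} [L.Structure N] (hN : #N = κ) (hK : K.mem N) :
    ∃ z : Pt K Ω κ, Nonempty (N ≃[L] z.s) := by
  obtain ⟨j⟩ := (Cardinal.le_def N Ω).1 (hN.trans_le hΩ.le)
  let e : N ≃ range j := Equiv.ofInjective j j.injective
  letI st : L.Structure (range j) := e.inducedStructure
  let e' : N ≃[L] range j := e.inducedStructureEquiv
  refine ⟨⟨range j, st, K.mem_iso e' hK, ?_⟩, ⟨e'⟩⟩
  rw [← hN]
  exact (mk_congr e).symm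

end Vale.Agent.P307.H304
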