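import Vale.Agent.P307.Gr.Gaifman

universe u

open Cardinal

namespace Vale.Agent.P307.H304

/-- The graph `G` contains a subdivision of the complete graph on `κ` vertices all of whose paths
have length at most `n`: there are a set `B` of `κ` branch vertices and, for all distinct `a, b` in
`B`, a path of length at most `n` from `a` to `b`, such that these paths meet `B` only in their ends
and the paths of two different pairs meet only inside `B`. -/
def HasShallowSubdivision {V : Type u} (G : SimpleGraph V) (n : ℕ) (κ : Cardinal.{u}) : Prop :=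
  ∃ (B : Set V) (p : ∀ a b : B, G.Walk a.1 b.1), #B = κ ∧
    (∀ a b : B, a ≠ b → (p a b).IsPath ∧ (p a b).length ≤ n ∧
      ∀ x ∈ (p a b).support, x ∈ B → x = a.1 ∨ x = b.1) ∧
    ∀ a b c d : B, a ≠ b → c ≠ d → s(a, b) ≠ s(c, d) →
      ∀ x ∈ (p a b).support, x ∈ (p c d).support → x ∈ B

end Vale.Agent.P307.H304
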