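import Vale.Agent.P307.H304.SparseUp
import Vale.Agent.P307.H304.ShallowDefs

/-!
One large member without shallow subdivided complete graphs gives members without subdivided
complete graphs in all cardinalities.
-/

universe u

open FirstOrder Cardinal Set

namespace Vale.Agent.P307.H304

open Language.Structure Language.Substructure

section graph

variable {V : Type u} {G : SimpleGraph V}

theorem shallow_of_index {T : Type u} (b : T → V) (hb : Function.Injective b)
    (q : ∀ i j, G.Walk (b i) (b j))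
    (m : ℕ) (h1 : ∀ i j, i ≠ j → (q i j).IsPath ∧ (q i j).length ≤ m ∧
      ∀ k, b k ∈ (q i j).support → k = i ∨ k = j)
    (h2 : ∀ i j i' j', i ≠ j → i' ≠ j' → s(i, j) ≠ s(i', j') →
      ∀ x ∈ (q i j).support, x ∈ (q i' j').support → ∃ k, b k = x) :
    HasShallowSubdivision G m #T := by
  choose e he using fun x : Set.range b => x.2
  have hinj : Function.Injective e := fun x y h => Subtype.ext (by rw [← he x, ← he y, h])
  refine ⟨Set.range b, fun x y => (q (e x) (e y)).copy (he x) (he y), mk_range_eq b hb, ?_, ?_⟩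
  · intro x y hxy
    obtain ⟨h3, h3', h4⟩ := h1 (e x) (e y) fun h => hxy (hinj h)
    refine ⟨?_, ?_, ?_⟩
    · rw [SimpleGraph.Walk.isPath_copy]
      exact h3
    · rw [SimpleGraph.Walk.length_copy]
      exact h3'
    · rintro z hz ⟨k, rfl⟩
      rw [SimpleGraph.Walk.support_copy] at hz
      rcases h4 k hz with h | h
      · exact Or.inl (by rw [h]; exact he x)
      · exact Or.inr (by rw [h]; exact he y)
  · intro x y x' y' hxy hxy' hne z hz hz'
    rw [SimpleGraph.Walk.support_copy] at hz hz'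
    refine h2 (e x) (e y) (e x') (e y') (fun h => hxy (hinj h)) (fun h => hxy' (hinj h)) ?_ z hz hz'
    intro h
    apply hne
    rw [Sym2.eq_iff] at h ⊢
    rcases h with ⟨h1, h2⟩ | ⟨h1, h2⟩
    · exact Or.inl ⟨hinj h1, hinj h2⟩
    · exact Or.inr ⟨hinj h1, hinj h2⟩

end graph

section main

variable {L L₁ : Language.{u, u}} {N M I X : Type u} [L.Structure N]
  [L₁.Structure N] [L.Structure M] [L₁.Structure M] [LinearOrder I] [LinearOrder X]

theorem copy_shallow (φ : L →ᴸ L₁) [φ.IsExpansionOn N] [φ.IsExpansionOn M] [Nonempty M]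
    {c : I → N} {x : X → M} {ι : I → X} {D : Set I} {e : ℕ}
    (hsim : Simil L₁ c x ι D (e + e)) {T : Type u} (hT : ∀ k : T, ∃ k', k ≠ k') (b : T → N)
    (hb : Function.Injective b) (q : ∀ i j, (Gr.gaifman L N).Walk (b i) (b j))
    (S : T → T → Finset I) (hS : ∀ i j, i ≠ j → Supp L₁ c (S i j) (q i j))
    (hcard : ∀ i j, i ≠ j → (S i j).card ≤ e) (hD : ∀ i j, i ≠ j → (S i j : Set I) ⊆ D)
    (m : ℕ) (h1 : ∀ i j, i ≠ j → (q i j).IsPath ∧ (q i j).length ≤ m ∧
      ∀ k, b k ∈ (q i j).support → k = i ∨ k = j)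
    (h2 : ∀ i j i' j', i ≠ j → i' ≠ j' → s(i, j) ≠ s(i', j') →
      ∀ x ∈ (q i j).support, x ∈ (q i' j').support → ∃ k, b k = x) :
    HasShallowSubdivision (Gr.gaifman L M) m #T := by
  classical
  let W : Finset I → Set (I × X) := fun S => (fun i => (i, ι i)) '' (S : Set I)
  let R : Set (N × M) := {p | ∃ i j, i ≠ j ∧ p ∈ patGraph L₁ c x (W (S i j))}
  have hR : ∀ p ∈ R, ∀ p' ∈ R, p.1 = p'.1 ↔ p.2 = p'.2 := by
    rintro p ⟨i, j, hij, hp⟩ p' ⟨i', j', hij', hp'⟩
    have hPI := hsim (S i j ∪ S i' j') (by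
      intro k hk
      have hk' : k ∈ S i j ∪ S i' j' := by exact_mod_cast hk
      rcases Finset.mem_union.1 hk' with h | h
      · exact hD i j hij (by exact_mod_cast h)
      · exact hD i' j' hij' (by exact_mod_cast h))
      ((Finset.card_union_le _ _).trans (Nat.add_le_add (hcard i j hij) (hcard i' j' hij')))
    refine hPI.eq_iff _ (patGraph_mono (image_mono ?_) hp) _ (patGraph_mono (image_mono ?_) hp')
    · intro k hk
      have hk' : k ∈ S i j := by exact_mod_cast hk
      exact_mod_cast Finset.mem_union_left _ hk'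
    · intro k hk
      have hk' : k ∈ S i' j' := by exact_mod_cast hk
      exact_mod_cast Finset.mem_union_right _ hk'
  have hPIs : ∀ i j, i ≠ j → IsPI L (patGraph L₁ c x (W (S i j))) := fun i j hij =>
    (hsim (S i j) (hD i j hij) ((hcard i j hij).trans (Nat.le_add_right _ _))).reduct φ
  have hdom : ∀ (S : Finset I) (y : N), y ∈ closure L₁ (c '' (S : Set I)) →
      ∃ y', (y, y') ∈ patGraph L₁ c x (W S) := by
    intro S y hy
    have h3 : c '' (S : Set I) ⊆ Set.range fun p : W S => c p.1.1 := by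
      rintro _ ⟨i, hi, rfl⟩
      exact ⟨⟨(i, ι i), i, hi, rfl⟩, rfl⟩
    obtain ⟨y', -, h4⟩ := exists_termGraph (fun p : W S => c p.1.1) (fun p : W S => x p.1.2)
      (closure_mono h3 hy)
    exact ⟨y', h4⟩
  let F : N → M := fun y => if h : ∃ y', (y, y') ∈ R then h.choose else Classical.arbitrary M
  have hF : ∀ y, (∃ y', (y, y') ∈ R) → (y, F y) ∈ R := by
    intro y h
    simp only [F, dif_pos h]
    exact h.choose_spec
  have hFR : ∀ y y', (y, y') ∈ R → F y = y' := fun y y' h =>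
    (hR _ (hF y ⟨y', h⟩) _ h).1 rfl
  have hFinj : ∀ y z, (∃ y', (y, y') ∈ R) → (∃ z', (z, z') ∈ R) → F y = F z → y = z :=
    fun y z hy hz h => (hR _ (hF y hy) _ (hF z hz)).2 h
  have hsup : ∀ i j, i ≠ j → ∀ y ∈ (q i j).support, ∃ y', (y, y') ∈ R := by
    intro i j hij y hy
    obtain ⟨y', h3⟩ := hdom _ y ((hS i j hij).1 y hy)
    exact ⟨y', i, j, hij, h3⟩
  have hadj : ∀ i j, i ≠ j → ∀ d ∈ (q i j).darts, (Gr.gaifman L M).Adj (F d.fst) (F d.snd) := by
    intro i j hij d hd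
    obtain ⟨n, r, y, hr, ⟨k, hk⟩, ⟨k', hk'⟩, hy⟩ := (hS i j hij).2 d hd
    choose z hz using fun m => hdom _ (y m) (hy m)
    have hFz : ∀ m, F (y m) = z m := fun m => hFR _ _ ⟨i, j, hij, hz m⟩
    have hne : d.fst ≠ d.snd := d.adj.1
    refine ⟨fun h => hne (hFinj _ _ ?_ ?_ h), n, r, z, ?_, ⟨k, ?_⟩, ⟨k', ?_⟩⟩
    · exact hsup i j hij _ (SimpleGraph.Walk.dart_fst_mem_support_of_mem_darts _ hd)
    · exact hsup i j hij _ (SimpleGraph.Walk.dart_snd_mem_support_of_mem_darts _ hd)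
    · exact ((hPIs i j hij).rel_iff r (fun m => (y m, z m)) hz).1 hr
    · rw [← hFz, hk]
    · rw [← hFz, hk']
  have hw : ∀ i j, ∃ w : (Gr.gaifman L M).Walk (F (b i)) (F (b j)),
      i ≠ j → w.support = (q i j).support.map F := by
    intro i j
    by_cases hij : i = j
    · subst hij
      exact ⟨SimpleGraph.Walk.nil, fun h => absurd rfl h⟩
    · obtain ⟨w, hw⟩ := exists_walk_map F (q i j) (hadj i j hij)
      exact ⟨w, fun _ => hw⟩
  choose w hw using hw
  have hbdom : ∀ i, ∃ y', (b i, y') ∈ R := by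
    intro i
    obtain ⟨j, hij⟩ := hT i
    exact hsup i j hij _ (SimpleGraph.Walk.start_mem_support _)
  refine shallow_of_index (fun i => F (b i))
    (fun i j h => hb (hFinj _ _ (hbdom i) (hbdom j) h)) w m ?_ ?_
  · intro i j hij
    obtain ⟨h3, h3', h4⟩ := h1 i j hij
    refine ⟨?_, ?_, ?_⟩
    · rw [SimpleGraph.Walk.isPath_def, hw i j hij]
      rw [SimpleGraph.Walk.isPath_def] at h3
      exact List.Nodup.map_on (fun y hy z hz h => hFinj y z (hsup i j hij y hy)
        (hsup i j hij z hz) h) h3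
    · have h5 := congrArg List.length (hw i j hij)
      rw [List.length_map, SimpleGraph.Walk.length_support, SimpleGraph.Walk.length_support] at h5
      omega
    · intro k hk
      rw [hw i j hij, List.mem_map] at hk
      obtain ⟨y, hy, hyk⟩ := hk
      have h5 : y = b k := hFinj _ _ (hsup i j hij y hy) (hbdom k) hyk
      rw [h5] at hy
      exact h4 k hy
  · intro i j i' j' hij hij' hne z hz hz'
    rw [hw i j hij, List.mem_map] at hz
    rw [hw i' j' hij', List.mem_map] at hz'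
    obtain ⟨y, hy, rfl⟩ := hz
    obtain ⟨y', hy', hyy⟩ := hz'
    have h5 : y' = y := hFinj _ _ (hsup i' j' hij' y' hy') (hsup i j hij y hy) hyy
    rw [h5] at hy'
    obtain ⟨k, hk⟩ := h2 i j i' j' hij hij' hne y hy hy'
    exact ⟨k, by rw [hk]⟩

theorem shallow_of_em (φ : L →ᴸ L₁) [φ.IsExpansionOn N] [φ.IsExpansionOn M] [WellFoundedLT I]
    [WellFoundedLT X] {l χ lam : Cardinal.{u}} (hl : ℵ₀ ≤ l) (hχ : l < χ) {c : I → N} {x : X → M}
    (htop : closure L₁ (Set.range c) = ⊤)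
    (hH : ∀ n : ℕ, ∃ H : Set X, χ ≤ #H ∧ ∀ k ≤ n, ∀ (i : Fin k → I) (b : Fin k → X),
      StrictMono i → StrictMono b → (∀ j, b j ∈ H) → AtEq L₁ (fun j => c (i j)) (fun j => x (b j)))
    (hlam : arrowFn 2 ℵ₀ l ≤ lam) (h : Gr.HasCompleteSubdivision (Gr.gaifman L N) lam) :
    ∃ m, HasShallowSubdivision (Gr.gaifman L M) m l := by
  classical
  obtain ⟨B, p, hB, hp, hq⟩ := h
  choose S₀ hS₀ using fun a b : B => exists_supp (L₁ := L₁) htop (p a b)
  let S' : B → B → Finset I := fun a b => S₀ a b ∪ S₀ b a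
  have hS'c : ∀ a b, S' a b = S' b a := fun a b => Finset.union_comm _ _
  obtain ⟨g⟩ : Nonempty (lam.ord.ToType ≃ B) := Cardinal.eq.1 (by rw [hB, mk_ord_toType])
  obtain ⟨H, hHl, hhom⟩ := arrowFn_spec 2 ℵ₀ l (ULift.{u} (ℕ × ℕ)) (by simp) lam.ord.ToType
    (by rw [mk_ord_toType]; exact hlam) (fun t => ULift.up ((S' (g (t 0)) (g (t 1))).card,
      max (p (g (t 0)) (g (t 1))).length (p (g (t 1)) (g (t 0))).length))
  obtain ⟨H', hH'H, hH'l⟩ := le_mk_iff_exists_subset.1 hHl
  have hinf : Infinite H' := infinite_iff.2 (by rw [hH'l]; exact hl)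
  have hother : ∀ k : H', ∃ k', k ≠ k' := fun k => by
    obtain ⟨k', hk'⟩ := exists_ne k
    exact ⟨k', hk'.symm⟩
  have hmono : ∀ {i j : H'}, i < j → StrictMono (![i.1, j.1] : Fin 2 → lam.ord.ToType) := by
    intro i j hij
    rw [Fin.strictMono_iff_lt_succ]
    intro k
    have : k = 0 := Subsingleton.elim _ _
    subst this
    exact hij
  have hmem : ∀ (i j : H') (k : Fin 2), (![i.1, j.1] : Fin 2 → lam.ord.ToType) k ∈ H := by
    intro i j k
    refine Fin.cases (hH'H i.2) (fun k => ?_) k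
    exact Fin.cases (hH'H j.2) (fun k => k.elim0) k
  have hlt : ∀ i j i' j' : H', i < j → i' < j' →
      (S' (g i.1) (g j.1)).card = (S' (g i'.1) (g j'.1)).card ∧
      max (p (g i.1) (g j.1)).length (p (g j.1) (g i.1)).length =
        max (p (g i'.1) (g j'.1)).length (p (g j'.1) (g i'.1)).length := by
    intro i j i' j' hij hij'
    have h1 := hhom ![i.1, j.1] ![i'.1, j'.1] (hmono hij) (hmono hij') (hmem i j) (hmem i' j')
    have h2 := congrArg (fun t => t.down.1) h1
    have h3 := congrArg (fun t => t.down.2) h1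
    exact ⟨h2, h3⟩
  obtain ⟨e, m, he, hm⟩ : ∃ e m : ℕ, (∀ i j : H', i ≠ j → (S' (g i.1) (g j.1)).card ≤ e) ∧
      ∀ i j : H', i ≠ j → (p (g i.1) (g j.1)).length ≤ m := by
    obtain ⟨i₀, j₀, hij₀⟩ : ∃ i₀ j₀ : H', i₀ < j₀ := by
      obtain ⟨k⟩ : Nonempty H' := inferInstance
      obtain ⟨k', hk⟩ := hother k
      rcases lt_or_gt_of_ne hk with h | h
      · exact ⟨k, k', h⟩
      · exact ⟨k', k, h⟩
    refine ⟨(S' (g i₀.1) (g j₀.1)).card,
      max (p (g i₀.1) (g j₀.1)).length (p (g j₀.1) (g i₀.1)).length,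
      fun i j hij => ?_, fun i j hij => ?_⟩
    · rcases lt_or_gt_of_ne hij with h | h
      · exact (hlt i j i₀ j₀ h hij₀).1.le
      · rw [hS'c]
        exact (hlt j i i₀ j₀ h hij₀).1.le
    · rcases lt_or_gt_of_ne hij with h | h
      · rw [← (hlt i j i₀ j₀ h hij₀).2]
        exact le_max_left _ _
      · rw [← (hlt j i i₀ j₀ h hij₀).2]
        exact le_max_right _ _
  let D : Set I := ⋃ t : H' × H', (S' (g t.1.1) (g t.2.1) : Set I)
  have hD : #D ≤ l := by
    refine (mk_iUnion_le _).trans ?_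
    calc _ ≤ l * l := by
          refine mul_le_mul' ?_ (ciSup_le' fun t => ?_)
          · rw [mk_prod, lift_id, hH'l, mul_eq_self hl]
          · exact ((lt_aleph0_of_finite _).le).trans hl
      _ = l := mul_eq_self hl
  obtain ⟨Hx, hHx, hAt⟩ := hH (e + e)
  obtain ⟨j, hj⟩ := exists_strictMono (D := D) (H := Hx) ((hD.trans_lt hχ).trans_le hHx)
  have hXne : Nonempty Hx := by
    rw [← mk_ne_zero_iff]
    exact ((aleph0_pos.trans_le hl).trans (hχ.trans_le hHx)).ne'
  obtain ⟨x₀⟩ := hXne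
  have hMne : Nonempty M := ⟨x x₀.1⟩
  let ι : I → X := fun i => if h : i ∈ D then (j ⟨i, h⟩ : X) else x₀.1
  have hι : ∀ (i : I) (hi : i ∈ D), ι i = (j ⟨i, hi⟩ : X) := fun i hi => dif_pos hi
  have hιm : StrictMonoOn ι D := by
    intro a ha b hb hab
    rw [hι a ha, hι b hb]
    exact hj (a := ⟨a, ha⟩) (b := ⟨b, hb⟩) hab
  have hιH : ∀ i ∈ D, ι i ∈ Hx := by
    intro i hi
    rw [hι i hi]
    exact (j ⟨i, hi⟩).2
  have hsim : Simil L₁ c x ι D (e + e) := simil_of_homogeneous hAt hιm hιH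
  have hbinj : Function.Injective fun i : H' => (g i.1).1 := fun i i' h =>
    Subtype.ext (g.injective (Subtype.ext h))
  have hgne : ∀ i i' : H', i ≠ i' → g i.1 ≠ g i'.1 := fun i i' h h' =>
    h (Subtype.ext (g.injective h'))
  have hpath : ∀ i j : H', i ≠ j → (p (g i.1) (g j.1)).IsPath ∧
      (p (g i.1) (g j.1)).length ≤ m ∧
      ∀ k : H', (g k.1).1 ∈ (p (g i.1) (g j.1)).support → k = i ∨ k = j := by
    intro i j hij
    obtain ⟨h3, h4⟩ := hp (g i.1) (g j.1) (hgne i j hij)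
    refine ⟨h3, hm i j hij, fun k hk => ?_⟩
    rcases h4 _ hk (g k.1).2 with h5 | h5
    · exact Or.inl (hbinj h5)
    · exact Or.inr (hbinj h5)
  refine ⟨m, ?_⟩
  rw [← hH'l]
  refine copy_shallow φ hsim hother (fun i : H' => (g i.1).1) hbinj
    (fun i j => p (g i.1) (g j.1)) (fun i j => S' (g i.1) (g j.1)) ?_ he ?_ m hpath ?_
  · intro i j _
    exact (hS₀ (g i.1) (g j.1)).mono Finset.subset_union_left
  · intro i j _
    exact subset_iUnion (fun t : H' × H' => (S' (g t.1.1) (g t.2.1) : Set I)) (i, j)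
  · intro i j i' j' hij hij' hne z hz hz'
    have h3 : s(g i.1, g j.1) ≠ s(g i'.1, g j'.1) := by
      intro h
      apply hne
      rw [Sym2.eq_iff] at h ⊢
      rcases h with ⟨h1, h2⟩ | ⟨h1, h2⟩
      · exact Or.inl ⟨Subtype.ext (g.injective h1), Subtype.ext (g.injective h2)⟩
      · exact Or.inr ⟨Subtype.ext (g.injective h1), Subtype.ext (g.injective h2)⟩
    have h4 := hq _ _ _ _ (hgne i j hij) (hgne i' j' hij') h3 z hz hz'
    rcases (hp (g i.1) (g j.1) (hgne i j hij)).2 z hz h4 with h5 | h5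
    · exact ⟨i, h5.symm⟩
    · exact ⟨j, h5.symm⟩

end main

/-- If some member of cardinality at least `μ` has, for every `n`, no subdivided complete graph on
`l` vertices with paths of length at most `n`, then in every cardinality `κ ≥ μ` there is a member without a subdivided complete graph on `κ`
vertices. -/
theorem shallow_up : ∀ l : Cardinal.{u}, ℵ₀ ≤ l → ∃ μ : Cardinal.{u}, l ≤ μ ∧
    ∀ (L : Language.{u, u}) (K : AEC L), K.IsLS l →
      (∃ (M : Type u) (_ : L.Structure M), K.mem M ∧ μ ≤ #M ∧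
        ∀ n, ¬ HasShallowSubdivision (Gr.gaifman L M) n l) →
      ∀ κ : Cardinal.{u}, μ ≤ κ → ∃ (N : Type u) (_ : L.Structure N), K.mem N ∧ #N = κ ∧
        ¬ Gr.HasCompleteSubdivision (Gr.gaifman L N) κ := by
  intro l hl
  refine ⟨max (hanfG (Order.succ l) (2 ^ l)) (max l (arrowFn 2 ℵ₀ l)),
    (le_max_left _ _).trans (le_max_right _ _), ?_⟩
  intro L K hK hM κ hκ
  obtain ⟨M, _, hM, hMc, hno⟩ := hM
  have hMl : l ≤ #M := ((le_max_left _ _).trans (le_max_right _ _)).trans hMc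
  have hκl : l ≤ κ := ((le_max_left _ _).trans (le_max_right _ _)).trans hκ
  have hκ0 : ℵ₀ ≤ κ := hl.trans hκl
  obtain ⟨Λ, hΛ⟩ : ∃ Λ : Type u, #Λ = l := ⟨l.out, mk_out l⟩
  have hne : Nonempty M := by
    rw [← mk_ne_zero_iff]
    exact ((aleph0_pos.trans_le hl).trans_le hMl).ne'
  obtain ⟨sk, hsk⟩ := exists_skolem hK hM Λ hΛ
  have hL : (exLang L Λ).card ≤ l := card_exLang_le hl hK.2.1 hΛ.le
  obtain ⟨x⟩ : Nonempty ((#M).ord.ToType ≃ M) := Cardinal.eq.1 (by rw [mk_ord_toType])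
  obtain ⟨a, ha1, ha2, ha3⟩ := exists_templateG (L := exLang L Λ) (χ := Order.succ l) hl hL x (by
    rw [mk_ord_toType]
    exact (le_max_left _ _).trans hMc)
  have ha4 : x (a 2 0) ≠ x (a 2 1) := fun h =>
    absurd (x.injective h) (ha1 2 (show (0 : Fin 2) < 1 by decide)).ne
  obtain ⟨N, hN, c, hc1, hc2⟩ := exists_isEM (L := exLang L Λ) (M := M)
    (a := fun n i => x (a n i)) ha2 κ.ord.ToType
  let _ : L.Structure N := (exHom L Λ).reduct N
  have this : (exHom L Λ).IsExpansionOn N := Language.LHom.isExpansionOn_reduct _ _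
  have hNK := em_le (K := K) (exHom L Λ) hc1 hc2 hsk
  have hcinj := hc1.injective ha4
  refine ⟨N, inferInstance, hNK.1, le_antisymm ?_ ?_, fun hsub => ?_⟩
  · refine (mk_le_of_surjective (f := fun t : (exLang L Λ).Term κ.ord.ToType => t.realize c)
      (exists_term_of_top hc2)).trans ?_
    exact mk_term_le hκ0 (hL.trans hκl) _ (mk_ord_toType κ).le
  · calc κ = #κ.ord.ToType := (mk_ord_toType κ).symm
      _ ≤ #N := mk_le_of_injective hcinj
  · have key : ∃ m, HasShallowSubdivision (Gr.gaifman L M) m l := by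
      refine shallow_of_em (exHom L Λ) hl (Order.lt_succ l) hc2 (x := x) (fun n => ?_)
        (((le_max_right _ _).trans (le_max_right _ _)).trans hκ) hsub
      obtain ⟨H, hH, hb⟩ := ha3 n
      refine ⟨H, hH, fun k hk i b hi hb1 hb2 => ?_⟩
      exact (hc1 k i hi).trans (hb k hk b hb1 hb2).symm
    obtain ⟨m, hm⟩ := key
    exact hno m hm

end Vale.Agent.P307.H304
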