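import Vale.Agent.P307.H304.Large
import Vale.Agent.P307.Gr.Gaifman

/-!
Subdivided complete graphs in Ehrenfeucht-Mostowski structures.
-/

universe u

open FirstOrder Cardinal Set

namespace Vale.Agent.P307.H304

open Language.Structure Language.Substructure

section graph

variable {V V' : Type u} {G : SimpleGraph V} {G' : SimpleGraph V'}

theorem exists_walk_map (F : V → V') {u v : V} (w : G.Walk u v)
    (h : ∀ d ∈ w.darts, G'.Adj (F d.fst) (F d.snd)) :
    ∃ w' : G'.Walk (F u) (F v), w'.support = w.support.map F := by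
  induction w with
  | nil => exact ⟨SimpleGraph.Walk.nil, rfl⟩
  | @cons a b c hadj w ih =>
    obtain ⟨w', hw'⟩ := ih fun d hd => h d (List.mem_cons_of_mem _ hd)
    refine ⟨SimpleGraph.Walk.cons (h ⟨(a, b), hadj⟩ (by simp)) w', ?_⟩
    rw [SimpleGraph.Walk.support_cons, SimpleGraph.Walk.support_cons, hw', List.map_cons]

theorem subdivision_of_index {T : Type u} (b : T → V) (hb : Function.Injective b)
    (q : ∀ i j, G.Walk (b i) (b j))
    (h1 : ∀ i j, i ≠ j → (q i j).IsPath ∧ ∀ k, b k ∈ (q i j).support → k = i ∨ k = j)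
    (h2 : ∀ i j i' j', i ≠ j → i' ≠ j' → s(i, j) ≠ s(i', j') →
      ∀ x ∈ (q i j).support, x ∈ (q i' j').support → ∃ k, b k = x) :
    Gr.HasCompleteSubdivision G #T := by
  choose e he using fun x : Set.range b => x.2
  have hinj : Function.Injective e := fun x y h => Subtype.ext (by rw [← he x, ← he y, h])
  refine ⟨Set.range b, fun x y => (q (e x) (e y)).copy (he x) (he y), mk_range_eq b hb, ?_, ?_⟩
  · intro x y hxy
    obtain ⟨h3, h4⟩ := h1 (e x) (e y) fun h => hxy (hinj h)
    refine ⟨?_, ?_⟩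
    · rw [SimpleGraph.Walk.isPath_copy]
      exact h3
    · rintro z hz ⟨k, rfl⟩
      rw [SimpleGraph.Walk.support_copy] at hz
      rcases h4 k hz with h | h
      · exact Or.inl (by rw [h]; exact he x)
      · exact Or.inr (by rw [h]; exact he y)
  · intro x y x' y' hxy hxy' hne z hz hz'
    rw [SimpleGraph.Walk.support_copy] at hz hz'
    refine h2 (e x) (e y) (e x') (e y') (fun h => hxy (hinj h)) (fun h => hxy' (hinj h)) ?_ z hz hz'
    intro h
    apply hne
    rw [Sym2.eq_iff] at h ⊢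
    rcases h with ⟨h1, h2⟩ | ⟨h1, h2⟩
    · exact Or.inl ⟨hinj h1, hinj h2⟩
    · exact Or.inr ⟨hinj h1, hinj h2⟩

end graph

section supp

variable {L L₁ : Language.{u, u}} {N I : Type u} [L.Structure N] [L₁.Structure N]

/-- The walk `w` is supported by the finite set `S` of indices. -/
def Supp (L₁ : Language.{u, u}) [L₁.Structure N] (c : I → N) (S : Finset I) {u v : N}
    (w : (Gr.gaifman L N).Walk u v) : Prop :=
  (∀ x ∈ w.support, x ∈ closure L₁ (c '' (S : Set I))) ∧
  ∀ d ∈ w.darts, ∃ (n : ℕ) (R : L.Relations n) (y : Fin n → N), RelMap R y ∧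
    d.fst ∈ Set.range y ∧ d.snd ∈ Set.range y ∧ ∀ i, y i ∈ closure L₁ (c '' (S : Set I))

theorem Supp.mono {c : I → N} {S S' : Finset I} (hS : S ⊆ S') {u v : N}
    {w : (Gr.gaifman L N).Walk u v} (h : Supp L₁ c S w) : Supp L₁ c S' w := by
  have h0 : closure L₁ (c '' (S : Set I)) ≤ closure L₁ (c '' (S' : Set I)) :=
    closure_mono (image_mono (by exact_mod_cast hS))
  refine ⟨fun x hx => h0 (h.1 x hx), fun d hd => ?_⟩
  obtain ⟨n, R, y, h1, h2, h3, h4⟩ := h.2 d hd
  exact ⟨n, R, y, h1, h2, h3, fun i => h0 (h4 i)⟩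

theorem exists_finset {c : I → N} (htop : closure L₁ (Set.range c) = ⊤) (x : N) :
    ∃ S : Finset I, x ∈ closure L₁ (c '' (S : Set I)) := by
  have h1 : x ∈ closure L₁ (c '' (Set.univ : Set I)) := by
    rw [image_univ, htop]
    trivial
  obtain ⟨b, hb⟩ := mem_closure_finite c _ h1
  exact ⟨_, hb⟩

theorem exists_supp [DecidableEq I] {c : I → N} (htop : closure L₁ (Set.range c) = ⊤) {u v : N}
    (w : (Gr.gaifman L N).Walk u v) : ∃ S : Finset I, Supp L₁ c S w := by
  induction w with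
  | @nil a =>
    obtain ⟨S, hS⟩ := exists_finset htop a
    refine ⟨S, ?_, ?_⟩
    · intro x hx
      rw [SimpleGraph.Walk.support_nil, List.mem_singleton] at hx
      rw [hx]
      exact hS
    · intro d hd
      simp at hd
  | @cons a b c' hadj w ih =>
    obtain ⟨S, hS⟩ := ih
    obtain ⟨S₀, hS₀⟩ := exists_finset htop a
    obtain ⟨-, n, R, y, hR, ha, hb⟩ := id hadj
    choose S₁ hS₁ using fun i => exists_finset htop (y i)
    let S₂ : Finset I := Finset.univ.biUnion S₁
    have h0 : closure L₁ (c '' (S₀ : Set I)) ≤ closure L₁ (c '' ((S ∪ S₀ ∪ S₂ : Finset I) : Set I)) :=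
      closure_mono (image_mono (by
        intro i hi
        have : i ∈ S₀ := by exact_mod_cast hi
        simp [this]))
    have h2 : ∀ i, closure L₁ (c '' (S₁ i : Set I)) ≤
        closure L₁ (c '' ((S ∪ S₀ ∪ S₂ : Finset I) : Set I)) := fun i =>
      closure_mono (image_mono (by
        intro k hk
        have h3 : k ∈ S₁ i := by exact_mod_cast hk
        have h4 : k ∈ S₂ := Finset.mem_biUnion.2 ⟨i, Finset.mem_univ _, h3⟩
        have h5 : k ∈ (S ∪ S₀ ∪ S₂ : Finset I) := Finset.mem_union_right _ h4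
        exact_mod_cast h5))
    have hS' := hS.mono (S' := S ∪ S₀ ∪ S₂) (Finset.union_subset_left (Finset.union_subset_left
      (Finset.Subset.refl _)))
    refine ⟨S ∪ S₀ ∪ S₂, ?_, ?_⟩
    · intro x hx
      rw [SimpleGraph.Walk.support_cons, List.mem_cons] at hx
      rcases hx with rfl | hx
      · exact h0 hS₀
      · exact hS'.1 x hx
    · intro d hd
      rw [SimpleGraph.Walk.darts_cons, List.mem_cons] at hd
      rcases hd with rfl | hd
      · exact ⟨n, R, y, hR, ha, hb, fun i => h2 i (hS₁ i)⟩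
      · exact hS'.2 d hd

end supp

section main

variable {L L₁ : Language.{u, u}} {φ : L →ᴸ L₁} {N M I X : Type u} [L.Structure N]
  [L₁.Structure N] [L.Structure M] [L₁.Structure M] [φ.IsExpansionOn N] [φ.IsExpansionOn M]
  [LinearOrder I] [LinearOrder X]

/-- The sequences `c` and `x` are similar along `ι` on sets of at most `m` indices. -/
def Simil (L₁ : Language.{u, u}) [L₁.Structure N] [L₁.Structure M] (c : I → N) (x : X → M)
    (ι : I → X) (D : Set I) (m : ℕ) : Prop :=
  ∀ S : Finset I, (S : Set I) ⊆ D → S.card ≤ m →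
    IsPI L₁ (patGraph L₁ c x ((fun i => (i, ι i)) '' (S : Set I)))

theorem simil_of_homogeneous {c : I → N} {x : X → M} {ι : I → X} {D : Set I} {m : ℕ} {H : Set X}
    (hH : ∀ k ≤ m, ∀ (i : Fin k → I) (b : Fin k → X), StrictMono i → StrictMono b →
      (∀ j, b j ∈ H) → AtEq L₁ (fun j => c (i j)) (fun j => x (b j)))
    (hι : StrictMonoOn ι D) (hιH : ∀ i ∈ D, ι i ∈ H) : Simil L₁ c x ι D m := by
  intro S hS hSm
  have hmem : ∀ k, S.orderEmbOfFin rfl k ∈ D := fun k =>
    hS (by exact_mod_cast Finset.orderEmbOfFin_mem S rfl k)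
  have h1 := hH S.card hSm (S.orderEmbOfFin rfl) (fun k => ι (S.orderEmbOfFin rfl k))
    (S.orderEmbOfFin rfl).strictMono
    (fun k k' hk => hι (hmem k) (hmem k') ((S.orderEmbOfFin rfl).strictMono hk))
    (fun k => hιH _ (hmem k))
  have hW : ∀ p : ((fun i => (i, ι i)) '' (S : Set I) : Set (I × X)), ∃ k : Fin S.card,
      S.orderEmbOfFin rfl k = p.1.1 ∧ ι (S.orderEmbOfFin rfl k) = p.1.2 := by
    rintro ⟨_, i, hi, rfl⟩
    have hi' : i ∈ S := by exact_mod_cast hi
    have h2 : i ∈ Set.range (S.orderEmbOfFin rfl) := by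
      rw [Finset.range_orderEmbOfFin]
      exact hi'
    obtain ⟨k, hk⟩ := h2
    exact ⟨k, hk, by rw [hk]⟩
  choose g hg1 hg2 using hW
  have h3 := h1.comp g
  refine AtEq.isPI ?_
  have h4 : (fun p : ((fun i => (i, ι i)) '' (S : Set I) : Set (I × X)) => c p.1.1) =
      (fun j => c (S.orderEmbOfFin rfl j)) ∘ g := by
    funext p
    exact congrArg c (hg1 p).symm
  have h5 : (fun p : ((fun i => (i, ι i)) '' (S : Set I) : Set (I × X)) => x p.1.2) =
      (fun j => x (ι (S.orderEmbOfFin rfl j))) ∘ g := by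
    funext p
    exact congrArg x (hg2 p).symm
  rw [h4, h5]
  exact h3

theorem copy_subdivision (φ : L →ᴸ L₁) [φ.IsExpansionOn N] [φ.IsExpansionOn M] [Nonempty M]
    {c : I → N} {x : X → M} {ι : I → X} {D : Set I} {e : ℕ}
    (hsim : Simil L₁ c x ι D (e + e)) {T : Type u} (hT : ∀ k : T, ∃ k', k ≠ k') (b : T → N)
    (hb : Function.Injective b) (q : ∀ i j, (Gr.gaifman L N).Walk (b i) (b j))
    (S : T → T → Finset I) (hS : ∀ i j, i ≠ j → Supp L₁ c (S i j) (q i j))
    (hcard : ∀ i j, i ≠ j → (S i j).card ≤ e) (hD : ∀ i j, i ≠ j → (S i j : Set I) ⊆ D)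
    (h1 : ∀ i j, i ≠ j → (q i j).IsPath ∧ ∀ k, b k ∈ (q i j).support → k = i ∨ k = j)
    (h2 : ∀ i j i' j', i ≠ j → i' ≠ j' → s(i, j) ≠ s(i', j') →
      ∀ x ∈ (q i j).support, x ∈ (q i' j').support → ∃ k, b k = x) :
    Gr.HasCompleteSubdivision (Gr.gaifman L M) #T := by
  classical
  let W : Finset I → Set (I × X) := fun S => (fun i => (i, ι i)) '' (S : Set I)
  let R : Set (N × M) := {p | ∃ i j, i ≠ j ∧ p ∈ patGraph L₁ c x (W (S i j))}
  have hR : ∀ p ∈ R, ∀ p' ∈ R, p.1 = p'.1 ↔ p.2 = p'.2 := by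
    rintro p ⟨i, j, hij, hp⟩ p' ⟨i', j', hij', hp'⟩
    have hPI := hsim (S i j ∪ S i' j') (by
      intro k hk
      have hk' : k ∈ S i j ∪ S i' j' := by exact_mod_cast hk
      rcases Finset.mem_union.1 hk' with h | h
      · exact hD i j hij (by exact_mod_cast h)
      · exact hD i' j' hij' (by exact_mod_cast h))
      ((Finset.card_union_le _ _).trans (Nat.add_le_add (hcard i j hij) (hcard i' j' hij')))
    refine hPI.eq_iff _ (patGraph_mono (image_mono ?_) hp) _ (patGraph_mono (image_mono ?_) hp')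
    · intro k hk
      have hk' : k ∈ S i j := by exact_mod_cast hk
      exact_mod_cast Finset.mem_union_left _ hk'
    · intro k hk
      have hk' : k ∈ S i' j' := by exact_mod_cast hk
      exact_mod_cast Finset.mem_union_right _ hk'
  have hPIs : ∀ i j, i ≠ j → IsPI L (patGraph L₁ c x (W (S i j))) := fun i j hij =>
    (hsim (S i j) (hD i j hij) ((hcard i j hij).trans (Nat.le_add_right _ _))).reduct φ
  have hdom : ∀ (S : Finset I) (y : N), y ∈ closure L₁ (c '' (S : Set I)) →
      ∃ y', (y, y') ∈ patGraph L₁ c x (W S) := by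
    intro S y hy
    have h3 : c '' (S : Set I) ⊆ Set.range fun p : W S => c p.1.1 := by
      rintro _ ⟨i, hi, rfl⟩
      exact ⟨⟨(i, ι i), i, hi, rfl⟩, rfl⟩
    obtain ⟨y', -, h4⟩ := exists_termGraph (fun p : W S => c p.1.1) (fun p : W S => x p.1.2)
      (closure_mono h3 hy)
    exact ⟨y', h4⟩
  let F : N → M := fun y => if h : ∃ y', (y, y') ∈ R then h.choose else Classical.arbitrary M
  have hF : ∀ y, (∃ y', (y, y') ∈ R) → (y, F y) ∈ R := by
    intro y h
    simp only [F, dif_pos h]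
    exact h.choose_spec
  have hFR : ∀ y y', (y, y') ∈ R → F y = y' := fun y y' h =>
    (hR _ (hF y ⟨y', h⟩) _ h).1 rfl
  have hFinj : ∀ y z, (∃ y', (y, y') ∈ R) → (∃ z', (z, z') ∈ R) → F y = F z → y = z :=
    fun y z hy hz h => (hR _ (hF y hy) _ (hF z hz)).2 h
  have hsup : ∀ i j, i ≠ j → ∀ y ∈ (q i j).support, ∃ y', (y, y') ∈ R := by
    intro i j hij y hy
    obtain ⟨y', h3⟩ := hdom _ y ((hS i j hij).1 y hy)
    exact ⟨y', i, j, hij, h3⟩
  have hadj : ∀ i j, i ≠ j → ∀ d ∈ (q i j).darts, (Gr.gaifman L M).Adj (F d.fst) (F d.snd) := by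
    intro i j hij d hd
    obtain ⟨n, r, y, hr, ⟨k, hk⟩, ⟨k', hk'⟩, hy⟩ := (hS i j hij).2 d hd
    choose z hz using fun m => hdom _ (y m) (hy m)
    have hFz : ∀ m, F (y m) = z m := fun m => hFR _ _ ⟨i, j, hij, hz m⟩
    have hne : d.fst ≠ d.snd := d.adj.1
    refine ⟨fun h => hne (hFinj _ _ ?_ ?_ h), n, r, z, ?_, ⟨k, ?_⟩, ⟨k', ?_⟩⟩
    · exact hsup i j hij _ (SimpleGraph.Walk.dart_fst_mem_support_of_mem_darts _ hd)
    · exact hsup i j hij _ (SimpleGraph.Walk.dart_snd_mem_support_of_mem_darts _ hd)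
    · exact ((hPIs i j hij).rel_iff r (fun m => (y m, z m)) hz).1 hr
    · rw [← hFz, hk]
    · rw [← hFz, hk']
  have hw : ∀ i j, ∃ w : (Gr.gaifman L M).Walk (F (b i)) (F (b j)),
      i ≠ j → w.support = (q i j).support.map F := by
    intro i j
    by_cases hij : i = j
    · subst hij
      exact ⟨SimpleGraph.Walk.nil, fun h => absurd rfl h⟩
    · obtain ⟨w, hw⟩ := exists_walk_map F (q i j) (hadj i j hij)
      exact ⟨w, fun _ => hw⟩
  choose w hw using hw
  have hbdom : ∀ i, ∃ y', (b i, y') ∈ R := by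
    intro i
    obtain ⟨j, hij⟩ := hT i
    exact hsup i j hij _ (SimpleGraph.Walk.start_mem_support _)
  refine subdivision_of_index (fun i => F (b i))
    (fun i j h => hb (hFinj _ _ (hbdom i) (hbdom j) h)) w ?_ ?_
  · intro i j hij
    obtain ⟨h3, h4⟩ := h1 i j hij
    refine ⟨?_, ?_⟩
    · rw [SimpleGraph.Walk.isPath_def, hw i j hij]
      rw [SimpleGraph.Walk.isPath_def] at h3
      exact List.Nodup.map_on (fun y hy z hz h => hFinj y z (hsup i j hij y hy)
        (hsup i j hij z hz) h) h3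
    · intro k hk
      rw [hw i j hij, List.mem_map] at hk
      obtain ⟨y, hy, hyk⟩ := hk
      have h5 : y = b k := hFinj _ _ (hsup i j hij y hy) (hbdom k) hyk
      rw [h5] at hy
      exact h4 k hy
  · intro i j i' j' hij hij' hne z hz hz'
    rw [hw i j hij, List.mem_map] at hz
    rw [hw i' j' hij', List.mem_map] at hz'
    obtain ⟨y, hy, rfl⟩ := hz
    obtain ⟨y', hy', hyy⟩ := hz'
    have h5 : y' = y := hFinj _ _ (hsup i' j' hij' y' hy') (hsup i j hij y hy) hyy
    rw [h5] at hy'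
    obtain ⟨k, hk⟩ := h2 i j i' j' hij hij' hne y hy hy'
    exact ⟨k, by rw [hk]⟩

end main

end Vale.Agent.P307.H304
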