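import Vale.Agent.P307.H304.Sparse

/-!
One large member without a subdivided complete graph gives such members in all cardinalities.
-/

universe u

open FirstOrder Cardinal Set

namespace Vale.Agent.P307.H304

open Language.Structure Language.Substructure

theorem exists_strictMono {D H : Type u} [LinearOrder D] [WellFoundedLT D] [LinearOrder H]
    [WellFoundedLT H] (h : #D < #H) : ∃ j : D → H, StrictMono j := by
  rcases InitialSeg.total (α := D) (β := H) (· < ·) (· < ·) with f | f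
  · exact ⟨f, fun a b hab => f.map_rel_iff.2 hab⟩
  · exact absurd (mk_le_of_injective f.injective) (not_le.2 h)

section

variable {L L₁ : Language.{u, u}} {N M I X : Type u} [L.Structure N]
  [L₁.Structure N] [L.Structure M] [L₁.Structure M] [LinearOrder I] [LinearOrder X]

theorem sub_of_em (φ : L →ᴸ L₁) [φ.IsExpansionOn N] [φ.IsExpansionOn M] [WellFoundedLT I]
    [WellFoundedLT X] {l χ lam : Cardinal.{u}} (hl : ℵ₀ ≤ l) (hχ : l < χ) {c : I → N} {x : X → M}
    (htop : closure L₁ (Set.range c) = ⊤)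
    (hH : ∀ n : ℕ, ∃ H : Set X, χ ≤ #H ∧ ∀ k ≤ n, ∀ (i : Fin k → I) (b : Fin k → X),
      StrictMono i → StrictMono b → (∀ j, b j ∈ H) → AtEq L₁ (fun j => c (i j)) (fun j => x (b j)))
    (hlam : arrowFn 2 ℵ₀ l ≤ lam) (h : Gr.HasCompleteSubdivision (Gr.gaifman L N) lam) :
    Gr.HasCompleteSubdivision (Gr.gaifman L M) l := by
  classical
  obtain ⟨B, p, hB, hp, hq⟩ := h
  choose S₀ hS₀ using fun a b : B => exists_supp (L₁ := L₁) htop (p a b)
  let S' : B → B → Finset I := fun a b => S₀ a b ∪ S₀ b a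
  have hS'c : ∀ a b, S' a b = S' b a := fun a b => Finset.union_comm _ _
  obtain ⟨g⟩ : Nonempty (lam.ord.ToType ≃ B) := Cardinal.eq.1 (by rw [hB, mk_ord_toType])
  obtain ⟨H, hHl, hhom⟩ := arrowFn_spec 2 ℵ₀ l (ULift.{u} ℕ) (by simp) lam.ord.ToType
    (by rw [mk_ord_toType]; exact hlam) (fun t => ULift.up (S' (g (t 0)) (g (t 1))).card)
  obtain ⟨H', hH'H, hH'l⟩ := le_mk_iff_exists_subset.1 hHl
  have hinf : Infinite H' := infinite_iff.2 (by rw [hH'l]; exact hl)
  have hother : ∀ k : H', ∃ k', k ≠ k' := fun k => by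
    obtain ⟨k', hk'⟩ := exists_ne k
    exact ⟨k', hk'.symm⟩
  have hmono : ∀ {i j : H'}, i < j → StrictMono (![i.1, j.1] : Fin 2 → lam.ord.ToType) := by
    intro i j hij
    rw [Fin.strictMono_iff_lt_succ]
    intro k
    have : k = 0 := Subsingleton.elim _ _
    subst this
    exact hij
  have hmem : ∀ (i j : H') (k : Fin 2), (![i.1, j.1] : Fin 2 → lam.ord.ToType) k ∈ H := by
    intro i j k
    refine Fin.cases (hH'H i.2) (fun k => ?_) k
    exact Fin.cases (hH'H j.2) (fun k => k.elim0) k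
  have hlt : ∀ i j i' j' : H', i < j → i' < j' →
      (S' (g i.1) (g j.1)).card = (S' (g i'.1) (g j'.1)).card := by
    intro i j i' j' hij hij'
    have h1 := hhom ![i.1, j.1] ![i'.1, j'.1] (hmono hij) (hmono hij') (hmem i j) (hmem i' j')
    exact congrArg ULift.down h1
  obtain ⟨e, he⟩ : ∃ e : ℕ, ∀ i j : H', i ≠ j → (S' (g i.1) (g j.1)).card ≤ e := by
    obtain ⟨i₀, j₀, hij₀⟩ : ∃ i₀ j₀ : H', i₀ < j₀ := by
      obtain ⟨k⟩ : Nonempty H' := inferInstance
      obtain ⟨k', hk⟩ := hother k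
      rcases lt_or_gt_of_ne hk with h | h
      · exact ⟨k, k', h⟩
      · exact ⟨k', k, h⟩
    refine ⟨(S' (g i₀.1) (g j₀.1)).card, fun i j hij => ?_⟩
    rcases lt_or_gt_of_ne hij with h | h
    · exact (hlt i j i₀ j₀ h hij₀).le
    · rw [hS'c]
      exact (hlt j i i₀ j₀ h hij₀).le
  let D : Set I := ⋃ t : H' × H', (S' (g t.1.1) (g t.2.1) : Set I)
  have hD : #D ≤ l := by
    refine (mk_iUnion_le _).trans ?_
    calc _ ≤ l * l := by
          refine mul_le_mul' ?_ (ciSup_le' fun t => ?_)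
          · rw [mk_prod, lift_id, hH'l, mul_eq_self hl]
          · exact ((lt_aleph0_of_finite _).le).trans hl
      _ = l := mul_eq_self hl
  obtain ⟨Hx, hHx, hAt⟩ := hH (e + e)
  obtain ⟨j, hj⟩ := exists_strictMono (D := D) (H := Hx) ((hD.trans_lt hχ).trans_le hHx)
  have hXne : Nonempty Hx := by
    rw [← mk_ne_zero_iff]
    exact ((aleph0_pos.trans_le hl).trans (hχ.trans_le hHx)).ne'
  obtain ⟨x₀⟩ := hXne
  have hMne : Nonempty M := ⟨x x₀.1⟩
  let ι : I → X := fun i => if h : i ∈ D then (j ⟨i, h⟩ : X) else x₀.1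
  have hι : ∀ (i : I) (hi : i ∈ D), ι i = (j ⟨i, hi⟩ : X) := fun i hi => dif_pos hi
  have hιm : StrictMonoOn ι D := by
    intro a ha b hb hab
    rw [hι a ha, hι b hb]
    exact hj (a := ⟨a, ha⟩) (b := ⟨b, hb⟩) hab
  have hιH : ∀ i ∈ D, ι i ∈ Hx := by
    intro i hi
    rw [hι i hi]
    exact (j ⟨i, hi⟩).2
  have hsim : Simil L₁ c x ι D (e + e) := simil_of_homogeneous hAt hιm hιH
  have hbinj : Function.Injective fun i : H' => (g i.1).1 := fun i i' h =>
    Subtype.ext (g.injective (Subtype.ext h))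
  have hgne : ∀ i i' : H', i ≠ i' → g i.1 ≠ g i'.1 := fun i i' h h' =>
    h (Subtype.ext (g.injective h'))
  have hpath : ∀ i j : H', i ≠ j → (p (g i.1) (g j.1)).IsPath ∧
      ∀ k : H', (g k.1).1 ∈ (p (g i.1) (g j.1)).support → k = i ∨ k = j := by
    intro i j hij
    obtain ⟨h3, h4⟩ := hp (g i.1) (g j.1) (hgne i j hij)
    refine ⟨h3, fun k hk => ?_⟩
    rcases h4 _ hk (g k.1).2 with h5 | h5
    · exact Or.inl (hbinj h5)
    · exact Or.inr (hbinj h5)
  rw [← hH'l]
  refine copy_subdivision φ hsim hother (fun i : H' => (g i.1).1) hbinj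
    (fun i j => p (g i.1) (g j.1)) (fun i j => S' (g i.1) (g j.1)) ?_ he ?_ hpath ?_
  · intro i j _
    exact (hS₀ (g i.1) (g j.1)).mono Finset.subset_union_left
  · intro i j _
    exact subset_iUnion (fun t : H' × H' => (S' (g t.1.1) (g t.2.1) : Set I)) (i, j)
  · intro i j i' j' hij hij' hne z hz hz'
    have h3 : s(g i.1, g j.1) ≠ s(g i'.1, g j'.1) := by
      intro h
      apply hne
      rw [Sym2.eq_iff] at h ⊢
      rcases h with ⟨h1, h2⟩ | ⟨h1, h2⟩
      · exact Or.inl ⟨Subtype.ext (g.injective h1), Subtype.ext (g.injective h2)⟩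
      · exact Or.inr ⟨Subtype.ext (g.injective h1), Subtype.ext (g.injective h2)⟩
    have h4 := hq _ _ _ _ (hgne i j hij) (hgne i' j' hij') h3 z hz hz'
    rcases (hp (g i.1) (g j.1) (hgne i j hij)).2 z hz h4 with h5 | h5
    · exact ⟨i, h5.symm⟩
    · exact ⟨j, h5.symm⟩

end

/-- If some member of cardinality at least `μ` has no subdivided complete graph on `l` vertices,
then in every cardinality `κ ≥ μ` there is a member without a subdivided complete graph on `κ`
vertices. -/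
theorem sparse_up : ∀ l : Cardinal.{u}, ℵ₀ ≤ l → ∃ μ : Cardinal.{u}, l ≤ μ ∧
    ∀ (L : Language.{u, u}) (K : AEC L), K.IsLS l →
      (∃ (M : Type u) (_ : L.Structure M), K.mem M ∧ μ ≤ #M ∧
        ¬ Gr.HasCompleteSubdivision (Gr.gaifman L M) l) →
      ∀ κ : Cardinal.{u}, μ ≤ κ → ∃ (N : Type u) (_ : L.Structure N), K.mem N ∧ #N = κ ∧
        ¬ Gr.HasCompleteSubdivision (Gr.gaifman L N) κ := by
  intro l hl
  refine ⟨max (hanfG (Order.succ l) (2 ^ l)) (max l (arrowFn 2 ℵ₀ l)),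
    (le_max_left _ _).trans (le_max_right _ _), ?_⟩
  intro L K hK hM κ hκ
  obtain ⟨M, _, hM, hMc, hno⟩ := hM
  have hMl : l ≤ #M := ((le_max_left _ _).trans (le_max_right _ _)).trans hMc
  have hκl : l ≤ κ := ((le_max_left _ _).trans (le_max_right _ _)).trans hκ
  have hκ0 : ℵ₀ ≤ κ := hl.trans hκl
  obtain ⟨Λ, hΛ⟩ : ∃ Λ : Type u, #Λ = l := ⟨l.out, mk_out l⟩
  have hne : Nonempty M := by
    rw [← mk_ne_zero_iff]
    exact ((aleph0_pos.trans_le hl).trans_le hMl).ne'
  obtain ⟨sk, hsk⟩ := exists_skolem hK hM Λ hΛ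
  have hL : (exLang L Λ).card ≤ l := card_exLang_le hl hK.2.1 hΛ.le
  obtain ⟨x⟩ : Nonempty ((#M).ord.ToType ≃ M) := Cardinal.eq.1 (by rw [mk_ord_toType])
  obtain ⟨a, ha1, ha2, ha3⟩ := exists_templateG (L := exLang L Λ) (χ := Order.succ l) hl hL x (by
    rw [mk_ord_toType]
    exact (le_max_left _ _).trans hMc)
  have ha4 : x (a 2 0) ≠ x (a 2 1) := fun h =>
    absurd (x.injective h) (ha1 2 (show (0 : Fin 2) < 1 by decide)).ne
  obtain ⟨N, hN, c, hc1, hc2⟩ := exists_isEM (L := exLang L Λ) (M := M)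
    (a := fun n i => x (a n i)) ha2 κ.ord.ToType
  let _ : L.Structure N := (exHom L Λ).reduct N
  have this : (exHom L Λ).IsExpansionOn N := Language.LHom.isExpansionOn_reduct _ _
  have hNK := em_le (K := K) (exHom L Λ) hc1 hc2 hsk
  have hcinj := hc1.injective ha4
  refine ⟨N, inferInstance, hNK.1, le_antisymm ?_ ?_, fun hsub => hno ?_⟩
  · refine (mk_le_of_surjective (f := fun t : (exLang L Λ).Term κ.ord.ToType => t.realize c)
      (exists_term_of_top hc2)).trans ?_
    exact mk_term_le hκ0 (hL.trans hκl) _ (mk_ord_toType κ).le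
  · calc κ = #κ.ord.ToType := (mk_ord_toType κ).symm
      _ ≤ #N := mk_le_of_injective hcinj
  · refine sub_of_em (exHom L Λ) hl (Order.lt_succ l) hc2 (x := x) (fun n => ?_)
      (((le_max_right _ _).trans (le_max_right _ _)).trans hκ) hsub
    obtain ⟨H, hH, hb⟩ := ha3 n
    refine ⟨H, hH, fun k hk i b hi hb1 hb2 => ?_⟩
    exact (hc1 k i hi).trans (hb k hk b hb1 hb2).symm

end Vale.Agent.P307.H304
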