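import Vale.Agent.P307.H304.Kueker

/-!
The uniform club.
-/

universe u

open FirstOrder Cardinal Set

namespace Vale.Agent.P307.H304

open Language.Structure

/-- Stabilization of the goodness of small positions. -/
def Stab {L : Language.{u, u}} (K : AEC L) (l : Cardinal.{u}) (α κ : Cardinal.{u} → Cardinal.{u}) :
    Prop :=
  ∀ ρ, l ≤ ρ → ρ ≤ α ρ ∧ ∀ ν, α ρ ≤ ν → ∀ (M M' : Type u) [L.Structure M] [L.Structure M'],
    K.mem M → K.mem M' → κ ν ≤ #M → κ ν ≤ #M' → ∀ R : Set (M × M'), #R ≤ ρ →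
      Good L (α ρ) R → Good L ν R

theorem exists_stab_fun {L : Language.{u, u}} {K : AEC L} {l : Cardinal.{u}} (hK : K.IsLS l)
    (hunb : ∀ ν, ℵ₀ ≤ ν → ∃ κ : Cardinal.{u}, ν < κ ∧ κ ^ ν = κ ∧ K.CategoricalIn κ) :
    ∃ α κ : Cardinal.{u} → Cardinal.{u}, Stab K l α κ := by
  obtain ⟨L₁, φ, M₀, hM₀, a, hL, hstd⟩ := exists_std hK hunb
  have h1 : ∀ ρ, ∃ α, l ≤ ρ → (ρ ≤ α ∧ ∀ ν, α ≤ ν → ∀ (M M' : Type u) [L.Structure M]
      [L.Structure M'], Std φ a ν M → Std φ a ν M' → ∀ R : Set (M × M'), #R ≤ ρ →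
      Good L α R → Good L ν R) := by
    intro ρ
    by_cases hρ : l ≤ ρ
    · obtain ⟨α, h⟩ := exists_alpha φ a (hK.1.trans hρ) (hL.trans hρ)
      exact ⟨α, fun _ => h⟩
    · exact ⟨0, fun h => absurd h hρ⟩
  choose α hα using h1
  have h2 : ∀ ν, ∃ κ : Cardinal.{u}, l ≤ ν → ∀ (M : Type u) [L.Structure M], K.mem M → κ ≤ #M →
      Std φ a ν M := by
    intro ν
    by_cases hν : l ≤ ν
    · obtain ⟨κ, h⟩ := hstd ν hν
      exact ⟨κ, fun _ => h⟩
    · exact ⟨0, fun h => absurd h hν⟩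
  choose κ hκ using h2
  refine ⟨α, κ, fun ρ hρ => ⟨(hα ρ hρ).1, fun ν hν M M' _ _ hM hM' hκM hκM' R hR hgood => ?_⟩⟩
  have hlν : l ≤ ν := (hρ.trans (hα ρ hρ).1).trans hν
  exact (hα ρ hρ).2 ν hν M M' (hκ ν hlν M hM hκM) (hκ ν hlν M' hM' hκM') R hR hgood

theorem Stab.of_mem {L : Language.{u, u}} {K K' : AEC L} {l : Cardinal.{u}}
    {α κ : Cardinal.{u} → Cardinal.{u}} (h : Stab K l α κ)
    (hKK' : ∀ (M : Type u) [L.Structure M], K'.mem M → K.mem M) : Stab K' l α κ :=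
  fun ρ hρ => ⟨(h ρ hρ).1, fun ν hν M M' _ _ hM hM' => (h ρ hρ).2 ν hν M M' (hKK' M hM)
    (hKK' M' hM')⟩

section up

variable {L L' : Language.{u, u}} {φ : L →ᴸ L'}

/-- The expansion of a structure along a bijective map of vocabularies. -/
noncomputable def expd (hf : ∀ n, Function.Bijective (φ.onFunction (n := n)))
    (hr : ∀ n, Function.Bijective (φ.onRelation (n := n))) (M : Type u) [L.Structure M] :
    L'.Structure M where
  funMap := fun {n} f x => funMap ((Equiv.ofBijective _ (hf n)).symm f) x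
  RelMap := fun {n} r x => RelMap ((Equiv.ofBijective _ (hr n)).symm r) x

theorem expd_spec (hf : ∀ n, Function.Bijective (φ.onFunction (n := n)))
    (hr : ∀ n, Function.Bijective (φ.onRelation (n := n))) (M : Type u) [L.Structure M] :
    letI := expd hf hr M
    φ.IsExpansionOn M := by
  letI := expd hf hr M
  refine ⟨fun {n} f x => ?_, fun {n} r x => ?_⟩
  · change funMap ((Equiv.ofBijective _ (hf n)).symm (Equiv.ofBijective _ (hf n) f)) x = funMap f x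
    rw [Equiv.symm_apply_apply]
  · change RelMap ((Equiv.ofBijective _ (hr n)).symm (Equiv.ofBijective _ (hr n) r)) x = RelMap r x
    rw [Equiv.symm_apply_apply]

theorem isPI_expand (hf : ∀ n, Function.Bijective (φ.onFunction (n := n)))
    (hr : ∀ n, Function.Bijective (φ.onRelation (n := n))) {M N : Type u} [L.Structure M]
    [L.Structure N] [L'.Structure M] [L'.Structure N] [φ.IsExpansionOn M] [φ.IsExpansionOn N]
    {R : Set (M × N)} (h : IsPI L R) : IsPI L' R where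
  eq_iff := h.eq_iff
  fun_iff := by
    intro n f x hx q hq
    obtain ⟨f, rfl⟩ := (hf n).2 f
    rw [φ.map_onFunction, φ.map_onFunction]
    exact h.fun_iff f x hx q hq
  rel_iff := by
    intro n r x hx
    obtain ⟨r, rfl⟩ := (hr n).2 r
    rw [φ.map_onRelation, φ.map_onRelation]
    exact h.rel_iff r x hx

theorem good_expand (hf : ∀ n, Function.Bijective (φ.onFunction (n := n)))
    (hr : ∀ n, Function.Bijective (φ.onRelation (n := n))) {M N : Type u} [L.Structure M]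
    [L.Structure N] [L'.Structure M] [L'.Structure N] [φ.IsExpansionOn M] [φ.IsExpansionOn N]
    {μ : Cardinal.{u}} {R : Set (M × N)} (h : Good L μ R) : Good L' μ R := by
  refine good_of_system {R | Good L μ R} ?_ ?_ ?_ h
  · intro R hR
    exact ⟨isPI_expand hf hr hR.1, hR.2.1⟩
  · intro R hR A hA
    obtain ⟨R', h1, h2, h3⟩ := hR.exists_left A hA
    exact ⟨R', h2, h1, h3⟩
  · intro R hR A hA
    obtain ⟨R', h1, h2, h3⟩ := hR.exists_right A hA
    exact ⟨R', h2, h1, h3⟩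

theorem Stab.of_up {K : AEC L} (hf : ∀ n, Function.Bijective (φ.onFunction (n := n)))
    (hr : ∀ n, Function.Bijective (φ.onRelation (n := n))) {l : Cardinal.{u}}
    {α κ : Cardinal.{u} → Cardinal.{u}}
    (h : Stab (K.up φ hf (fun n => (hr n).2)) l α κ) : Stab K l α κ := by
  refine fun ρ hρ => ⟨(h ρ hρ).1, fun ν hν M M' _ _ hM hM' hκ hκ' R hR hgood => ?_⟩
  letI := expd hf hr M
  letI := expd hf hr M'
  haveI := expd_spec hf hr M
  haveI := expd_spec hf hr M'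
  have hmem : ∀ (M : Type u) [L.Structure M] [L'.Structure M] [φ.IsExpansionOn M], K.mem M →
      K.mem (Dn φ M) := by
    intro M _ _ _ hM
    refine K.mem_iso ?_ hM
    exact {
      toFun := fun x => x
      invFun := fun x => x
      left_inv := fun _ => rfl
      right_inv := fun _ => rfl
      map_fun' := fun {n} f x => (φ.map_onFunction f x).symm
      map_rel' := fun {n} r x => iff_of_eq (φ.map_onRelation r x) }
  exact ((h ρ hρ).2 ν hν M M' (hmem M hM) (hmem M' hM') hκ hκ' R hR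
    (good_expand hf hr hgood)).reduct φ

end up

/-- The codes with the stabilization functions. -/
theorem spec_dichotomy' {Λ : Type u} (c : CodeTy Λ) :
    ∃ (g α κ₁ κ₂ : Cardinal.{u} → Cardinal.{u}) (ν : Cardinal.{u}),
      ((∀ θ, (∀ ρ < θ, g ρ < θ) → θ.ord.cof = ℵ₀ → θ ∈ spec c) ∧
        (∀ ν, ℵ₀ ≤ ν → ν < κ₂ ν ∧ κ₂ ν ^ ν = κ₂ ν ∧ κ₂ ν ∈ spec c) ∧
        ∀ K : AEC (canLang c.1.1 c.1.2), K.IsLS #Λ → K.part Λ = c.2 → Stab K #Λ α κ₁) ∨
      (ℵ₀ ≤ ν ∧ ∀ κ, ν < κ → κ ^ ν = κ → κ ∉ spec c) := by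
  by_cases hunb : ∀ ν, ℵ₀ ≤ ν → ∃ κ : Cardinal.{u}, ν < κ ∧ κ ^ ν = κ ∧ κ ∈ spec c
  · obtain ⟨κ, -, -, K, hK1, hK2, -⟩ := hunb ℵ₀ le_rfl
    have hspec : ∀ κ, κ ∈ spec c → K.CategoricalIn κ := by
      rintro κ ⟨K', h1, h2, h3⟩
      exact categoricalIn_of_part_eq (h2.trans hK2.symm) h1 hK1 h3
    have hunb' : ∀ ν, ℵ₀ ≤ ν → ∃ κ : Cardinal.{u}, ν < κ ∧ κ ^ ν = κ ∧ K.CategoricalIn κ := by
      intro ν hν
      obtain ⟨κ, h1, h2, h3⟩ := hunb ν hν
      exact ⟨κ, h1, h2, hspec κ h3⟩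
    obtain ⟨g, hg⟩ := exists_closure_fun (K := K) hunb'
    obtain ⟨α, κ₁, hst⟩ := exists_stab_fun hK1 hunb'
    have hunb2 : ∀ ν, ∃ κ : Cardinal.{u}, ℵ₀ ≤ ν → ν < κ ∧ κ ^ ν = κ ∧ κ ∈ spec c := by
      intro ν
      by_cases hν : ℵ₀ ≤ ν
      · obtain ⟨κ, h⟩ := hunb ν hν
        exact ⟨κ, fun _ => h⟩
      · exact ⟨0, fun h => absurd h hν⟩
    choose κ₂ hκ₂ using hunb2
    exact ⟨g, α, κ₁, κ₂, 0, Or.inl ⟨fun θ h1 h2 => ⟨K, hK1, hK2, hg θ h1 h2⟩, hκ₂,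
      fun K' h1 h2 => hst.of_mem fun M _ hM => mem_of_part_eq (h2.trans hK2.symm) h1 hM⟩⟩
  · push Not at hunb
    obtain ⟨ν, hν, h⟩ := hunb
    exact ⟨id, id, id, id, ν, Or.inr ⟨hν, h⟩⟩

theorem exists_code' {Λ : Type u} {L : Language.{u, u}} (K : AEC L) (hK : K.IsLS #Λ) :
    ∃ c : CodeTy Λ, (∀ κ, κ ∈ spec c ↔ K.CategoricalIn κ) ∧
      ∀ α κ₁ : Cardinal.{u} → Cardinal.{u},
        (∀ K' : AEC (canLang c.1.1 c.1.2), K'.IsLS #Λ → K'.part Λ = c.2 → Stab K' #Λ α κ₁) →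
        Stab K #Λ α κ₁ := by
  obtain ⟨A, B, φ, hf, hr⟩ := exists_canLang L Λ hK.2.1
  let K' : AEC (canLang A B) := K.up φ hf (fun n => (hr n).2)
  have hK' : K'.IsLS #Λ := AEC.up_isLS hf (fun n => (hr n).2) hK
  have h1 : ∀ κ, κ ∈ spec (⟨(A, B), K'.part Λ⟩ : CodeTy Λ) ↔ K'.CategoricalIn κ := by
    intro κ
    constructor
    · rintro ⟨K'', h1, h2, h3⟩
      exact categoricalIn_of_part_eq h2 h1 hK' h3
    · intro h
      exact ⟨K', hK', rfl, h⟩
  refine ⟨⟨(A, B), K'.part Λ⟩, fun κ => ?_, fun α κ₁ h => ?_⟩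
  · rw [h1]
    exact AEC.up_categoricalIn hf hr κ
  · exact Stab.of_up hf hr (h K' hK' rfl)

/-- The system of a closure point. -/
theorem isSys_of_stab {L : Language.{u, u}} {K : AEC L} {l θ : Cardinal.{u}}
    {α κ₁ : Cardinal.{u} → Cardinal.{u}} (hl : ℵ₀ ≤ l) (hst : Stab K l α κ₁)
    (hα : ∀ ρ < θ, α ρ < θ) (hκ₁ : ∀ ρ < θ, κ₁ ρ < θ) {M N : Type u} [L.Structure M]
    [L.Structure N] (hM : K.mem M) (hN : K.mem N) (hMθ : θ ≤ #M) (hNθ : θ ≤ #N) :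
    IsSys L θ {R : Set (M × N) | ∃ ρ < θ, l ≤ ρ ∧ #R ≤ ρ ∧ Good L (α ρ) R} where
  isPI := by
    rintro R ⟨ρ, -, -, -, h⟩
    exact h.1
  card := by
    rintro R ⟨ρ, h1, -, h2, -⟩
    exact h2.trans_lt h1
  forth := by
    rintro R ⟨ρ, h1, h2, h3, h4⟩ A hA
    let ρ' := max ρ #A
    let ν := max (α ρ) (α ρ')
    have hρ' : ρ' < θ := max_lt h1 hA
    have hν : ν < θ := max_lt (hα ρ h1) (hα ρ' hρ')
    have hlρ' : l ≤ ρ' := h2.trans (le_max_left _ _)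
    have h5 : Good L ν R := (hst ρ h2).2 ν (le_max_left _ _) M N hM hN
      ((hκ₁ ν hν).le.trans hMθ) ((hκ₁ ν hν).le.trans hNθ) R h3 h4
    have hρν : ρ' ≤ ν := (hst ρ' hlρ').1.trans (le_max_right _ _)
    obtain ⟨R₁, h6, h7, h8⟩ := h5.exists_left A ((le_max_right _ _).trans hρν)
    obtain ⟨R₂, h9, h10, h11, h12⟩ := exists_trim (hl.trans hlρ') h6
      (h3.trans (le_max_left _ _)) A (le_max_right _ _) h8
    refine ⟨R₂, ⟨ρ', hρ', hlρ', h11, ?_⟩, h9, h12⟩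
    exact Good.mono ((hl.trans hlρ').trans (hst ρ' hlρ').1) (le_max_right _ _)
      (h7.subset h10) (h11.trans (hst ρ' hlρ').1)
  back := by
    rintro R ⟨ρ, h1, h2, h3, h4⟩ B hB
    let ρ' := max ρ #B
    let ν := max (α ρ) (α ρ')
    have hρ' : ρ' < θ := max_lt h1 hB
    have hν : ν < θ := max_lt (hα ρ h1) (hα ρ' hρ')
    have hlρ' : l ≤ ρ' := h2.trans (le_max_left _ _)
    have h5 : Good L ν R := (hst ρ h2).2 ν (le_max_left _ _) M N hM hN
      ((hκ₁ ν hν).le.trans hMθ) ((hκ₁ ν hν).le.trans hNθ) R h3 h4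
    have hρν : ρ' ≤ ν := (hst ρ' hlρ').1.trans (le_max_right _ _)
    obtain ⟨R₁, h6, h7, h8⟩ := h5.exists_right B ((le_max_right _ _).trans hρν)
    obtain ⟨R₂, h9, h10, h11, h12⟩ := exists_trim (M := N) (N := M) (hl.trans hlρ')
      (R := Prod.swap ⁻¹' R) (R' := Prod.swap ⁻¹' R₁) (preimage_mono h6)
      ((mk_swap R).trans_le (h3.trans (le_max_left _ _))) B (le_max_right _ _) h8
    refine ⟨Prod.swap ⁻¹' R₂, ⟨ρ', hρ', hlρ', (mk_swap R₂).trans_le h11, ?_⟩,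
      fun p hp => h9 (a := p.swap) hp, h12⟩
    exact Good.mono ((hl.trans hlρ').trans (hst ρ' hlρ').1) (le_max_right _ _)
      (h7.subset fun p hp => h10 hp) (((mk_swap R₂).trans_le h11).trans (hst ρ' hlρ').1)

/-- Structure of the class above a closure point. -/
theorem infinitary_of_stab {L : Language.{u, u}} {K : AEC L} {l θ : Cardinal.{u}}
    {α κ₁ κ₂ : Cardinal.{u} → Cardinal.{u}} (hK : K.IsLS l) (hst : Stab K l α κ₁)
    (hκ : ∀ ν, ℵ₀ ≤ ν → ν < κ₂ ν ∧ κ₂ ν ^ ν = κ₂ ν ∧ K.CategoricalIn (κ₂ ν)) (hlθ : l < θ)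
    (hα : ∀ ρ < θ, α ρ < θ) (hκ₁ : ∀ ρ < θ, κ₁ ρ < θ) (hκ₂ : ∀ ρ < θ, κ₂ ρ < θ) :
    (∃ (M : Type u) (_ : L.Structure M), K.mem M ∧ #M = θ) ∧
    (∀ (M N : Type u) [L.Structure M] [L.Structure N], K.mem M → θ ≤ #M → θ ≤ #N →
      (K.mem N ↔ InfEq L θ M N)) ∧
    (∀ (N : Type u) [L.Structure N] (S : L.Substructure N), K.mem N → θ ≤ #S →
      (K.le S ↔ InfElem L θ S)) := by
  have hθ : ℵ₀ < θ := hK.1.trans_lt hlθ
  have hLθ : L.card < θ := hK.2.1.trans_lt hlθ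
  refine ⟨?_, ?_, ?_⟩
  · obtain ⟨h1, -, ⟨M, _, h2, h3⟩, -⟩ := hκ θ hθ.le
    exact exists_mem_card hK hlθ.le h2 (h1.le.trans h3.ge)
  · intro M N _ _ hM hMθ hNθ
    constructor
    · intro hN φ
      have hlα : l ≤ α l := (hst l le_rfl).1
      have h1 : Good L (α l) (∅ : Set (M × N)) := by
        obtain ⟨h2, h3, h4⟩ := hκ (α l) (hK.1.trans hlα)
        have h5 : κ₂ (α l) < θ := hκ₂ _ (hα l hlθ)
        exact good_empty_of_categorical hK hlα h3 (two_le_of_unb (hK.1.trans hlα) h2) h4 hM hN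
          (h5.le.trans hMθ) (h5.le.trans hNθ)
      exact (isSys_of_stab hK.1 hst hα hκ₁ hM hN hMθ hNθ).sat_iff hθ hLθ φ
        (R := ∅) ⟨l, hlθ, le_rfl, by simp, h1⟩ (by
          rw [mk_pempty]
          exact aleph0_pos.trans hθ) (fun x => x.elim)
    · intro h
      refine mem_of_good hK hM ?_
      refine (isSys_satSys (L := L) (M := M) (N := N) hθ.le).good hK.1 hlθ
        (R := Set.range fun x : PEmpty.{u + 1} => ((x.elim, x.elim) : M × N))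
        ⟨PEmpty.{u + 1}, _, _, ?_, rfl, h⟩ (empty_subset _) (by simp)
      rw [mk_pempty]
      exact aleph0_pos.trans hθ
  · intro N _ S hN hSθ
    have hNθ : θ ≤ #N := hSθ.trans (mk_set_le _)
    constructor
    · intro hS X hX φ v
      have hSmem : K.mem S := (K.mem_of_le _ hS).1
      have hA : #(Set.range v) < θ := mk_range_le.trans_lt hX
      let ρ := max l #(Set.range v)
      have hρ : ρ < θ := max_lt hlθ hA
      have hlρ : l ≤ ρ := le_max_left _ _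
      have hlα : l ≤ α ρ := hlρ.trans (hst ρ hlρ).1
      have h1 : Good L (α ρ) (gr S.subtype (Set.range v)) := by
        obtain ⟨h2, h3, h4⟩ := hκ (α ρ) (hK.1.trans hlα)
        have h5 : κ₂ (α ρ) < θ := hκ₂ _ (hα ρ hρ)
        exact good_gr hK hlα h2 h3 h4 S.subtype (AEC.emb_subtype.2 hS) (h5.le.trans hSθ) _
          ((le_max_right _ _).trans (hst ρ hlρ).1)
      exact (isSys_of_stab hK.1 hst hα hκ₁ hSmem hN hSθ hNθ).sat_iff hθ hLθ φ
        (R := gr S.subtype (Set.range v))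
        ⟨ρ, hρ, hlρ, (mk_gr_le _ _).trans (le_max_right _ _), h1⟩ hX
        (fun x => mem_gr.2 ⟨⟨x, rfl⟩, rfl⟩)
    · intro h
      refine le_of_elem hK hN fun A hA => ?_
      refine (isSys_satSys (L := L) (M := S) (N := N) hθ.le).good hK.1 hlθ
        (R := Set.range fun x : A => ((x.1, (x.1 : N)) : S × N))
        ⟨A, _, _, hA.trans_lt hlθ, rfl, fun φ => h A (hA.trans_lt hlθ) φ _⟩ ?_
        ((mk_gr_le _ _).trans hA)
      rintro _ ⟨a, ha, rfl⟩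
      exact ⟨⟨a, ha⟩, rfl⟩

/-- The uniform club with the infinitary description of the class above its members. -/
theorem uniform_club_infinitary (l : Cardinal.{u}) :
    ∃ μ, l ≤ μ ∧ ∃ C : Set Cardinal.{u}, IsClub C ∧
      ∀ (L : Language.{u, u}) (K : AEC L), K.LS ≤ l →
        (∃ κ, μ ≤ κ ∧ κ ^ μ = κ ∧ K.CategoricalIn κ) →
        ∀ θ ∈ C, (θ.ord.cof = ℵ₀ → K.CategoricalIn θ) ∧
          (∃ (M : Type u) (_ : L.Structure M), K.mem M ∧ #M = θ) ∧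
          (∀ (M N : Type u) [L.Structure M] [L.Structure N], K.mem M → θ ≤ #M → θ ≤ #N →
            (K.mem N ↔ InfEq L θ M N)) ∧
          (∀ (N : Type u) [L.Structure N] (S : L.Substructure N), K.mem N → θ ≤ #S →
            (K.le S ↔ InfElem L θ S)) := by
  obtain ⟨Λ, hΛ⟩ : ∃ Λ : Type u, #Λ = l := ⟨l.out, mk_out l⟩
  choose g α κ₁ κ₂ ν h using fun c : CodeTy Λ => spec_dichotomy' c
  have hbν : BddAbove (Set.range ν) := bddAbove_of_small
  let G : CodeTy Λ → Cardinal.{u} → Cardinal.{u} := fun c ρ =>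
    max (max (g c ρ) (α c ρ)) (max (κ₁ c ρ) (κ₂ c ρ))
  have hbg : ∀ ρ, BddAbove (Set.range fun c => G c ρ) := fun ρ => bddAbove_of_small
  refine ⟨max l (Order.succ (⨆ c, ν c)), le_max_left _ _,
    {θ | l < θ ∧ ∀ ρ < θ, (⨆ c, G c ρ) < θ}, isClub_closure _ _, ?_⟩
  intro L K hK hcat θ hθ
  obtain ⟨κ, hμκ, hκ, hcat⟩ := hcat
  have hLS : K.IsLS #Λ := AEC.isLS_of_LS_le (hK.trans hΛ.ge)
  obtain ⟨c, hc, hcst⟩ := exists_code' K hLS
  rw [← hc] at hcat
  have hG : ∀ ρ < θ, G c ρ < θ := fun ρ hρ => (le_ciSup (hbg ρ) c).trans_lt (hθ.2 ρ hρ)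
  rcases h c with ⟨h1, h2, h3⟩ | ⟨h1, h2⟩
  · refine ⟨fun hcof => ?_, ?_⟩
    · rw [← hc]
      exact h1 θ (fun ρ hρ => ((le_max_left _ _).trans (le_max_left _ _)).trans_lt (hG ρ hρ)) hcof
    · refine infinitary_of_stab hLS (hcst _ _ h3) (fun ν hν => ?_) ?_
        (fun ρ hρ => ((le_max_right _ _).trans (le_max_left _ _)).trans_lt (hG ρ hρ))
        (fun ρ hρ => ((le_max_left _ _).trans (le_max_right _ _)).trans_lt (hG ρ hρ))
        (fun ρ hρ => ((le_max_right _ _).trans (le_max_right _ _)).trans_lt (hG ρ hρ))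
      · obtain ⟨h4, h5, h6⟩ := h2 ν hν
        exact ⟨h4, h5, (hc _).1 h6⟩
      · rw [hΛ]
        exact hθ.1
  · exfalso
    have h3 : ν c < max l (Order.succ (⨆ c, ν c)) :=
      (Order.lt_succ_of_le (le_ciSup hbν c)).trans_le (le_max_right _ _)
    have h4 : ν c < κ := h3.trans_le hμκ
    refine h2 κ h4 (power_eq_of_le hκ h3.le h1 ?_) hcat
    exact one_le_aleph0.trans (h1.trans h4.le)

end Vale.Agent.P307.H304
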